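import Crest.Agent.R318.Level

/-! Items built from records.  A record `(cell, kind, u, w, t)` gives a large item knowing
`(cell, kind, u)`, a medium item knowing `(cell, w)` and a small item knowing `(kind, t)`.
A packing with few extra bins consists, up to a bounded number of exceptions per cell, of triples
with matching cell and kind and `u - w ≤ t`. -/

set_option autoImplicit false
set_option maxHeartbeats 400000

namespace Crest.Agent.R318

open Crest.BinPacking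

/-- Records `(cell, kind, u, w, t)`. -/
abbrev Rec (C K : Type) := C × K × ℚ × ℚ × ℚ

section
variable {C K : Type}

/-- Data of the large item. -/
def Xd (r : Rec C K) : C × K × ℚ := (r.1, r.2.1, r.2.2.1)
/-- Data of the medium item. -/
def Yd (r : Rec C K) : C × ℚ := (r.1, r.2.2.2.1)
/-- Data of the small item. -/
def Wd (r : Rec C K) : K × ℚ := (r.2.1, r.2.2.2.2)
/-- The three items of the record fit into a bin. -/
def Fits (r : Rec C K) : Prop := r.2.2.1 - r.2.2.2.1 ≤ r.2.2.2.2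

/-- Unit of the second address digit. -/
def M2 (U : ℕ) : ℕ := 3 * U + 1
/-- Unit of the first address digit. -/
def M1 (D U : ℕ) : ℕ := (2 * 3 ^ D + 1) * M2 U
/-- Normalisation. -/
def Zc (D U : ℕ) : ℕ := 200 * ((2 * 3 ^ D + 1) * M1 D U)
/-- Value of an address. -/
def adr (D U : ℕ) (p : ℕ × ℕ) : ℕ := 3 ^ (min p.1 D) * M1 D U + 3 ^ (min p.2 D) * M2 U

variable (D U : ℕ) (ca : C → ℕ × ℕ) (ka : K → ℕ × ℕ)

/-- Size of the large item. -/
def sX (a : C × K × ℚ) : ℚ :=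
  13 / 25 + (a.2.2 - (adr D U (ca a.1) : ℚ) - (adr D U (ka a.2.1) : ℚ)) / (Zc D U : ℚ)
/-- Size of the medium item. -/
def sY (a : C × ℚ) : ℚ := 1 / 4 + ((adr D U (ca a.1) : ℚ) - a.2) / (Zc D U : ℚ)
/-- Size of the small item. -/
def sW (a : K × ℚ) : ℚ := 23 / 100 + ((adr D U (ka a.1) : ℚ) - a.2) / (Zc D U : ℚ)

/-- The multiset of all item sizes. -/
def sizesM (L : Multiset (Rec C K)) : Multiset ℚ :=
  L.map (fun r => sX D U ca ka (Xd r)) + L.map (fun r => sY D U ca (Yd r)) +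
    L.map (fun r => sW D U ka (Wd r))

/-- The list of all item sizes. -/
def sizes (L : List (Rec C K)) : List ℚ :=
  L.map (fun r => sX D U ca ka (Xd r)) ++ L.map (fun r => sY D U ca (Yd r)) ++
    L.map (fun r => sW D U ka (Wd r))

theorem coe_sizes (L : List (Rec C K)) :
    (sizes D U ca ka L : Multiset ℚ) = sizesM D U ca ka L := by
  simp [sizes, sizesM]

theorem Zc_pos : (0 : ℚ) < Zc D U := by
  unfold Zc M1 M2; positivity

theorem adr_le (p : ℕ × ℕ) : adr D U p ≤ 3 ^ D * M1 D U + 3 ^ D * M2 U := by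
  unfold adr
  have h1 : 3 ^ (min p.1 D) ≤ 3 ^ D := Nat.pow_le_pow_right (by norm_num) (min_le_right _ _)
  have h2 : 3 ^ (min p.2 D) ≤ 3 ^ D := Nat.pow_le_pow_right (by norm_num) (min_le_right _ _)
  gcongr

theorem pert_le (p p' : ℕ × ℕ) : 200 * (U + adr D U p + adr D U p') ≤ Zc D U := by
  have h1 := adr_le D U p
  have h2 := adr_le D U p'
  unfold Zc
  have : M1 D U = 2 * (3 ^ D * M2 U) + M2 U := by unfold M1; ring
  have h3 : U ≤ M2 U := by unfold M2; omega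
  have h4 : (2 * 3 ^ D + 1) * M1 D U = 2 * (3 ^ D * M1 D U) + M1 D U := by ring
  omega

theorem pert_bound {y : ℚ} (p p' : ℕ × ℕ) (h : |y| ≤ U + adr D U p + adr D U p') :
    -(1 / 200) ≤ y / (Zc D U : ℚ) ∧ y / (Zc D U : ℚ) ≤ 1 / 200 := by
  have h1 : (200 : ℚ) * (U + adr D U p + adr D U p') ≤ Zc D U := by exact_mod_cast pert_le D U p p'
  have hz := Zc_pos D U
  rw [abs_le] at h
  rw [le_div_iff₀ hz, div_le_iff₀ hz]
  constructor <;> linarith [h.1, h.2]

theorem sX_mem {a : C × K × ℚ} (h : |a.2.2| ≤ U) :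
    515 / 1000 ≤ sX D U ca ka a ∧ sX D U ca ka a ≤ 525 / 1000 := by
  have := pert_bound D U (y := a.2.2 - (adr D U (ca a.1) : ℚ) - (adr D U (ka a.2.1) : ℚ))
    (ca a.1) (ka a.2.1) (by
      rw [abs_le] at h ⊢
      have : (0 : ℚ) ≤ adr D U (ca a.1) := by positivity
      have : (0 : ℚ) ≤ adr D U (ka a.2.1) := by positivity
      constructor <;> linarith [h.1, h.2])
  unfold sX
  constructor <;> linarith [this.1, this.2]

theorem sY_mem {a : C × ℚ} (h : |a.2| ≤ U) :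
    245 / 1000 ≤ sY D U ca a ∧ sY D U ca a ≤ 255 / 1000 := by
  have := pert_bound D U (y := (adr D U (ca a.1) : ℚ) - a.2) (ca a.1) (ca a.1) (by
      rw [abs_le] at h ⊢
      have : (0 : ℚ) ≤ adr D U (ca a.1) := by positivity
      constructor <;> linarith [h.1, h.2])
  unfold sY
  constructor <;> linarith [this.1, this.2]

theorem sW_mem {a : K × ℚ} (h : |a.2| ≤ U) :
    225 / 1000 ≤ sW D U ka a ∧ sW D U ka a ≤ 235 / 1000 := by
  have := pert_bound D U (y := (adr D U (ka a.1) : ℚ) - a.2) (ka a.1) (ka a.1) (by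
      rw [abs_le] at h ⊢
      have : (0 : ℚ) ≤ adr D U (ka a.1) := by positivity
      constructor <;> linarith [h.1, h.2])
  unfold sW
  constructor <;> linarith [this.1, this.2]

/-- All three numbers of the record are bounded by `U`. -/
def Bdd (r : Rec C K) : Prop := |r.2.2.1| ≤ U ∧ |r.2.2.2.1| ≤ U ∧ |r.2.2.2.2| ≤ U

theorem sizesM_mem {L : Multiset (Rec C K)} (hb : ∀ r ∈ L, Bdd U r) :
    ∀ a ∈ sizesM D U ca ka L, 1 / 6 < a ∧ a ≤ 1 := by
  intro a ha
  simp only [sizesM, Multiset.mem_add, Multiset.mem_map] at ha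
  rcases ha with (⟨r, hr, rfl⟩ | ⟨r, hr, rfl⟩) | ⟨r, hr, rfl⟩
  · have := sX_mem D U ca ka (a := Xd r) (hb r hr).1
    constructor <;> linarith [this.1, this.2]
  · have := sY_mem D U ca (a := Yd r) (hb r hr).2.1
    constructor <;> linarith [this.1, this.2]
  · have := sW_mem D U ka (a := Wd r) (hb r hr).2.2
    constructor <;> linarith [this.1, this.2]

theorem sum_three (a : C × K × ℚ) (b : C × ℚ) (d : K × ℚ) :
    sX D U ca ka a + sY D U ca b + sW D U ka d ≤ 1 ↔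
      a.2.2 - b.2 - d.2 + adr D U (ca b.1) + adr D U (ka d.1) ≤
        adr D U (ca a.1) + adr D U (ka a.2.1) := by
  have hz := Zc_pos D U
  have : sX D U ca ka a + sY D U ca b + sW D U ka d = 1 + (a.2.2 - b.2 - d.2 + adr D U (ca b.1) +
      adr D U (ka d.1) - (adr D U (ca a.1) + adr D U (ka a.2.1))) / (Zc D U : ℚ) := by
    unfold sX sY sW; field_simp; ring
  rw [this, add_le_iff_nonpos_right, div_nonpos_iff]
  constructor
  · rintro (⟨_, h⟩ | ⟨h, _⟩) <;> linarith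
  · intro h; exact Or.inr ⟨by linarith, hz.le⟩

theorem fits_sum {r : Rec C K} (h : Fits r) :
    sX D U ca ka (Xd r) + sY D U ca (Yd r) + sW D U ka (Wd r) ≤ 1 := by
  rw [sum_three]; unfold Fits at h; simp only [Xd, Yd, Wd]; linarith

theorem sizesM_congr {T L : Multiset (Rec C K)} (hX : T.map Xd = L.map Xd)
    (hY : T.map Yd = L.map Yd) (hW : T.map Wd = L.map Wd) :
    sizesM D U ca ka T = sizesM D U ca ka L := by
  have h1 := congrArg (Multiset.map (sX D U ca ka)) hX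
  have h2 := congrArg (Multiset.map (sY D U ca)) hY
  have h3 := congrArg (Multiset.map (sW D U ka)) hW
  simp only [Multiset.map_map, Function.comp_def] at h1 h2 h3
  unfold sizesM; rw [h1, h2, h3]

/-- The size of the `k`-th item of a record. -/
def sz3 : Fin 3 → Rec C K → ℚ :=
  ![fun r => sX D U ca ka (Xd r), fun r => sY D U ca (Yd r), fun r => sW D U ka (Wd r)]

theorem univ_map_sz3 (l : List (Rec C K)) :
    Finset.univ.val.map (fun p : Fin l.length × Fin 3 => sz3 D U ca ka p.2 (l.get p.1)) =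
      sizesM D U ca ka l :=
  univ_map_three l (sz3 D U ca ka)

theorem pack_of_same {ι : Type*} [Fintype ι] {a : ι → ℚ} {L T : Multiset (Rec C K)}
    (h : Finset.univ.val.map a = sizesM D U ca ka L) (hX : T.map Xd = L.map Xd)
    (hY : T.map Yd = L.map Yd) (hW : T.map Wd = L.map Wd) (hfit : ∀ r ∈ T, Fits r) :
    PacksInto a L.card := by
  obtain ⟨l, rfl⟩ : ∃ l : List (Rec C K), T = l := ⟨T.toList, by simp⟩
  have hc : L.card = l.length := by simpa using (congrArg Multiset.card hX).symm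
  rw [hc]
  refine packsInto_of_map_eq
    (h.trans ((sizesM_congr D U ca ka hX hY hW).symm.trans (univ_map_sz3 D U ca ka l).symm)) ?_
  refine ⟨fun p => p.1, fun b => ?_⟩
  rw [Finset.sum_filter, Fintype.sum_prod_type, Finset.sum_eq_single b]
  · simp only [if_true, Fin.sum_univ_three]
    exact fits_sum D U ca ka (hfit _ (by simp))
  · intro i _ hi; simp [hi]
  · simp

theorem bin_std {α : Type*} (f g k : α → ℚ) (A B E : Multiset α)
    (hA : ∀ a ∈ A, 515 / 1000 ≤ f a) (hB : ∀ a ∈ B, 245 / 1000 ≤ g a)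
    (hE : ∀ a ∈ E, 225 / 1000 ≤ k a) (h : (A.map f).sum + (B.map g).sum + (E.map k).sum ≤ 1) :
    ∃ T : Multiset (α × α × α), T.map (fun τ => τ.1) ≤ A ∧ T.map (fun τ => τ.2.1) ≤ B ∧
      T.map (fun τ => τ.2.2) ≤ E ∧ (∀ τ ∈ T, f τ.1 + g τ.2.1 + k τ.2.2 ≤ 1) ∧
      6 * A.card + 2 * B.card + E.card ≤ T.card + 8 := by
  have key : ∀ (S : Multiset α) (φ : α → ℚ) (c : ℚ), (∀ a ∈ S, c ≤ φ a) →
      (S.card : ℚ) * c ≤ (S.map φ).sum := by
    intro S φ c hS
    have := Multiset.card_nsmul_le_sum (s := S.map φ) (a := c) (by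
      intro x hx; obtain ⟨a, ha, rfl⟩ := Multiset.mem_map.1 hx; exact hS a ha)
    simpa using this
  have h1 := key A f _ hA
  have h2 := key B g _ hB
  have h3 := key E k _ hE
  have h4 : 515 * A.card + 245 * B.card + 225 * E.card ≤ 1000 := by
    have : (515 : ℚ) * A.card + 245 * B.card + 225 * E.card ≤ 1000 := by linarith
    exact_mod_cast this
  by_cases hs : A.card = 1 ∧ B.card = 1 ∧ E.card = 1
  · obtain ⟨a, rfl⟩ := Multiset.card_eq_one.1 hs.1
    obtain ⟨b, rfl⟩ := Multiset.card_eq_one.1 hs.2.1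
    obtain ⟨e, rfl⟩ := Multiset.card_eq_one.1 hs.2.2
    exact ⟨{(a, b, e)}, by simp, by simp, by simp, by simpa using h, by simp⟩
  · refine ⟨0, by simp, by simp, by simp, by simp, ?_⟩
    simp only [Multiset.card_zero]
    have h5 : A.card ≤ 1 := by omega
    have h6 : B.card ≤ 4 := by omega
    generalize A.card = x at *
    generalize B.card = y at *
    interval_cases x <;> interval_cases y <;> omega

theorem exists_std {ι : Type*} [Fintype ι] {a : ι → ℚ} {L : Multiset (Rec C K)}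
    (h : Finset.univ.val.map a = sizesM D U ca ka L) (hb : ∀ r ∈ L, Bdd U r) {c : ℕ}
    (hp : PacksInto a (L.card + c)) :
    ∃ T : Multiset (Rec C K × Rec C K × Rec C K), T.map (fun τ => τ.1) ≤ L ∧
      T.map (fun τ => τ.2.1) ≤ L ∧ T.map (fun τ => τ.2.2) ≤ L ∧
      (∀ τ ∈ T, sX D U ca ka (Xd τ.1) + sY D U ca (Yd τ.2.1) + sW D U ka (Wd τ.2.2) ≤ 1) ∧
      L.card ≤ T.card + 8 * c := by
  obtain ⟨l, rfl⟩ : ∃ l : List (Rec C K), L = l := ⟨L.toList, by simp⟩
  obtain ⟨N, hN⟩ : ∃ N, N = Multiset.card (l : Multiset (Rec C K)) + c := ⟨_, rfl⟩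
  rw [← hN] at hp
  obtain ⟨g, hg⟩ := packsInto_of_map_eq ((univ_map_sz3 D U ca ka l).trans h.symm) hp
  let A : Fin 3 → Fin N → Multiset (Rec C K) := fun k b =>
    ∑ i ∈ Finset.univ.filter (fun i : Fin l.length => g (i, k) = b), {l.get i}
  have hA : ∀ k, ∑ b, A k b = l := fun k => by
    simp only [A]
    rw [Finset.sum_fiberwise (s := Finset.univ) (g := fun i : Fin l.length => g (i, k))
      (f := fun i => ({l.get i} : Multiset (Rec C K))), ← univ_map_get l, fsum_singleton]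
  have hAl : ∀ k b, ∀ r ∈ A k b, r ∈ (l : Multiset (Rec C K)) := fun k b r hr => by
    rw [← hA k]; exact Multiset.mem_sum.2 ⟨b, Finset.mem_univ _, hr⟩
  have hs : ∀ k b (φ : Rec C K → ℚ), ((A k b).map φ).sum =
      ∑ i : Fin l.length, if g (i, k) = b then φ (l.get i) else 0 := fun k b φ => by
    simp only [A]
    rw [map_fsum, Multiset.sum_sum, Finset.sum_filter]; simp
  have := fun b => bin_std (fun r => sX D U ca ka (Xd r)) (fun r => sY D U ca (Yd r))
    (fun r => sW D U ka (Wd r)) (A 0 b) (A 1 b) (A 2 b)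
    (fun r hr => (sX_mem D U ca ka (a := Xd r) (hb r (hAl _ _ r hr)).1).1)
    (fun r hr => (sY_mem D U ca (a := Yd r) (hb r (hAl _ _ r hr)).2.1).1)
    (fun r hr => (sW_mem D U ka (a := Wd r) (hb r (hAl _ _ r hr)).2.2).1) (by
      have := hg b
      rw [Finset.sum_filter, Fintype.sum_prod_type] at this
      simp only [Fin.sum_univ_three, Finset.sum_add_distrib] at this
      rw [hs, hs, hs]; exact this)
  choose T h1 h2 h3 h4 h5 using this
  refine ⟨∑ b, T b, ?_, ?_, ?_, ?_, ?_⟩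
  · rw [map_fsum, ← hA 0]; exact Finset.sum_le_sum fun b _ => h1 b
  · rw [map_fsum, ← hA 1]; exact Finset.sum_le_sum fun b _ => h2 b
  · rw [map_fsum, ← hA 2]; exact Finset.sum_le_sum fun b _ => h3 b
  · intro τ hτ
    obtain ⟨b, _, hb⟩ := Multiset.mem_sum.1 hτ
    exact h4 b τ hb
  · have := Finset.sum_le_sum (s := Finset.univ) fun b _ => h5 b
    simp only [Finset.sum_add_distrib, ← Finset.mul_sum, ← Multiset.card_sum, hA,
      Finset.sum_const, Finset.card_univ, Fintype.card_fin, smul_eq_mul] at this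
    omega

theorem digits {D U : ℕ} {p p' k k' : ℕ × ℕ} {y : ℚ} (hy : -(3 * U : ℚ) ≤ y)
    (hp : p.1 ≤ D ∧ p.2 ≤ D) (hp' : p'.1 ≤ D ∧ p'.2 ≤ D) (hk : k.1 ≤ D ∧ k.2 ≤ D)
    (hk' : k'.1 ≤ D ∧ k'.2 ≤ D)
    (h : y + adr D U p' + adr D U k' ≤ adr D U p + adr D U k) :
    3 ^ p'.1 + 3 ^ k'.1 ≤ 3 ^ p.1 + 3 ^ k.1 ∧
      (p'.1 = p.1 → k'.1 = k.1 → 3 ^ p'.2 + 3 ^ k'.2 ≤ 3 ^ p.2 + 3 ^ k.2) := by
  have h1 : adr D U p' + adr D U k' ≤ adr D U p + adr D U k + 3 * U := by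
    have : (adr D U p' + adr D U k' : ℚ) ≤ adr D U p + adr D U k + 3 * U := by linarith
    exact_mod_cast this
  simp only [adr, min_eq_left hp.1, min_eq_left hp.2, min_eq_left hp'.1, min_eq_left hp'.2,
    min_eq_left hk.1, min_eq_left hk.2, min_eq_left hk'.1, min_eq_left hk'.2] at h1
  have h2 : 3 * U < M2 U := by unfold M2; omega
  constructor
  · by_contra hc
    have h3 : (3 ^ p.1 + 3 ^ k.1 + 1) * M1 D U ≤ (3 ^ p'.1 + 3 ^ k'.1) * M1 D U :=
      Nat.mul_le_mul_right _ (by omega)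
    have h4 : 3 ^ p.2 * M2 U ≤ 3 ^ D * M2 U :=
      Nat.mul_le_mul_right _ (Nat.pow_le_pow_right (by norm_num) hp.2)
    have h5 : 3 ^ k.2 * M2 U ≤ 3 ^ D * M2 U :=
      Nat.mul_le_mul_right _ (Nat.pow_le_pow_right (by norm_num) hk.2)
    have h6 : M1 D U = 2 * (3 ^ D * M2 U) + M2 U := by unfold M1; ring
    simp only [add_mul, one_mul] at h3
    omega
  · intro e1 e2
    rw [e1, e2] at h1
    by_contra hc
    have h3 : (3 ^ p.2 + 3 ^ k.2 + 1) * M2 U ≤ (3 ^ p'.2 + 3 ^ k'.2) * M2 U :=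
      Nat.mul_le_mul_right _ (by omega)
    simp only [add_mul, one_mul] at h3
    omega

theorem sub_of_pack {ι : Type*} [Fintype ι] {a : ι → ℚ} {L : Multiset (Rec C K)} {c B : ℕ}
    (h : Finset.univ.val.map a = sizesM D U ca ka L) (hb : ∀ r ∈ L, Bdd U r)
    (hD : ∀ r ∈ L, (ca r.1).1 ≤ D ∧ (ca r.1).2 ≤ D)
    (hB : ∀ r ∈ L, (ka r.2.1).1 ≤ (ca r.1).1 ∧ (ca r.1).1 ≤ (ka r.2.1).1 + B ∧
      (ka r.2.1).2 ≤ (ca r.1).2 ∧ (ca r.1).2 ≤ (ka r.2.1).2 + B)
    (hca : ∀ r ∈ L, ∀ r' ∈ L, ca r.1 = ca r'.1 → r.1 = r'.1)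
    (hka : ∀ r ∈ L, ∀ r' ∈ L, ka r.2.1 = ka r'.2.1 → r.2.1 = r'.2.1)
    (hp : PacksInto a (L.card + c)) :
    ∃ T : Multiset (Rec C K), T.map Xd ≤ L.map Xd ∧ T.map Yd ≤ L.map Yd ∧ T.map Wd ≤ L.map Wd ∧
      (∀ r ∈ T, Fits r) ∧
      ∀ z, cnt L (fun r => r.1 = z) ≤ cnt T (fun r => r.1 = z) + amp B (amp B (8 * c)) := by
  classical
  obtain ⟨T, h1, h2, h3, h4, h5⟩ := exists_std D U ca ka h hb hp
  have m1 : ∀ τ ∈ T, τ.1 ∈ L := fun τ hτ => Multiset.mem_of_le h1 (Multiset.mem_map_of_mem _ hτ)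
  have m2 : ∀ τ ∈ T, τ.2.1 ∈ L := fun τ hτ =>
    Multiset.mem_of_le h2 (Multiset.mem_map_of_mem _ hτ)
  have m3 : ∀ τ ∈ T, τ.2.2 ∈ L := fun τ hτ =>
    Multiset.mem_of_le h3 (Multiset.mem_map_of_mem _ hτ)
  have hK : ∀ r ∈ L, (ka r.2.1).1 ≤ D ∧ (ka r.2.1).2 ≤ D := fun r hr => by
    have := hD r hr; have := hB r hr; omega
  have h4' : ∀ τ ∈ T, τ.1.2.2.1 - τ.2.1.2.2.2.1 - τ.2.2.2.2.2.2 + adr D U (ca τ.2.1.1) +
      adr D U (ka τ.2.2.2.1) ≤ adr D U (ca τ.1.1) + adr D U (ka τ.1.2.1) := fun τ hτ => by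
    have := (sum_three D U ca ka _ _ _).1 (h4 τ hτ)
    simpa only [Xd, Yd, Wd] using this
  have dg := fun τ (hτ : τ ∈ T) => digits (by
        have a1 := abs_le.1 (hb _ (m1 τ hτ)).1
        have a2 := abs_le.1 (hb _ (m2 τ hτ)).2.1
        have a3 := abs_le.1 (hb _ (m3 τ hτ)).2.2
        linarith [a1.1, a2.2, a3.2])
      (hD _ (m1 τ hτ)) (hD _ (m2 τ hτ)) (hK _ (m1 τ hτ)) (hK _ (m3 τ hτ)) (h4' τ hτ)
  have l1 := level B (8 * c) L T (fun _ => 0) (fun _ => 0) (fun r => (ca r.1).1)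
    (fun r => (ka r.2.1).1) h1 h2 h3 (fun r hr => by have := hB r hr; omega)
    (fun τ hτ => ⟨rfl, rfl, (dg τ hτ).1⟩) (fun v => by
      by_cases hv : 0 = v
      · rw [cnt_eq_card fun _ _ => hv, cnt_eq_card fun _ _ => hv]; exact h5
      · rw [cnt_eq_zero.2 fun _ _ => hv]; exact Nat.zero_le _) 0
  set T1 := T.filter fun τ => (ca τ.2.1.1).1 = (ca τ.1.1).1 ∧ (ka τ.2.2.2.1).1 = (ka τ.1.2.1).1
    with hT1
  have s1 : T1 ≤ T := Multiset.filter_le _ _
  have l2 := level B (amp B (8 * c)) L T1 (fun r => (ca r.1).1) (fun r => (ka r.2.1).1)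
    (fun r => (ca r.1).2) (fun r => (ka r.2.1).2) ((Multiset.map_le_map s1).trans h1)
    ((Multiset.map_le_map s1).trans h2) ((Multiset.map_le_map s1).trans h3)
    (fun r hr => hB r hr)
    (fun τ hτ => by
      obtain ⟨hτ, e1, e2⟩ := Multiset.mem_filter.1 hτ
      exact ⟨e1, e2, (dg τ hτ).2 e1 e2⟩)
    (fun v => by simpa using l1 v)
  set T2 := T1.filter fun τ => (ca τ.2.1.1).2 = (ca τ.1.1).2 ∧ (ka τ.2.2.2.1).2 = (ka τ.1.2.1).2
    with hT2
  have s2 : T2 ≤ T := (Multiset.filter_le _ _).trans s1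
  have eq : ∀ τ ∈ T2, τ.2.1.1 = τ.1.1 ∧ τ.2.2.2.1 = τ.1.2.1 := fun τ hτ => by
    obtain ⟨hτ, e3, e4⟩ := Multiset.mem_filter.1 hτ
    obtain ⟨hτ, e1, e2⟩ := Multiset.mem_filter.1 hτ
    exact ⟨hca _ (m2 τ hτ) _ (m1 τ hτ) (Prod.ext e1 e3),
      hka _ (m3 τ hτ) _ (m1 τ hτ) (Prod.ext e2 e4)⟩
  refine ⟨T2.map fun τ => (τ.1.1, τ.1.2.1, τ.1.2.2.1, τ.2.1.2.2.2.1, τ.2.2.2.2.2.2),
    ?_, ?_, ?_, ?_, ?_⟩
  · refine le_trans (le_of_eq ?_) (Multiset.map_le_map ((Multiset.map_le_map s2).trans h1))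
    simp only [Multiset.map_map]; rfl
  · refine le_trans (le_of_eq ?_) (Multiset.map_le_map ((Multiset.map_le_map s2).trans h2))
    simp only [Multiset.map_map]
    exact Multiset.map_congr rfl fun τ hτ => by simp [Yd, (eq τ hτ).1]
  · refine le_trans (le_of_eq ?_) (Multiset.map_le_map ((Multiset.map_le_map s2).trans h3))
    simp only [Multiset.map_map]
    exact Multiset.map_congr rfl fun τ hτ => by simp [Wd, (eq τ hτ).2]
  · intro r hr
    obtain ⟨τ, hτ, rfl⟩ := Multiset.mem_map.1 hr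
    have := h4' τ (Multiset.mem_of_le s2 hτ)
    rw [(eq τ hτ).1, (eq τ hτ).2] at this
    unfold Fits; linarith
  · intro z
    by_cases hz : ∃ r ∈ L, r.1 = z
    · obtain ⟨r0, hr0, rfl⟩ := hz
      refine (cnt_mono L _ _ fun r _ h => ?_).trans ((l2 (ca r0.1).1 (ca r0.1).2).trans ?_)
      · rw [h]; exact ⟨rfl, rfl⟩
      · rw [cnt_map]
        exact Nat.add_le_add_right (cnt_mono _ _ _ fun τ hτ h =>
          hca _ (m1 τ (Multiset.mem_of_le s2 hτ)) _ hr0 (Prod.ext h.1 h.2)) _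
    · rw [cnt_eq_zero.2 fun r hr h => hz ⟨r, hr, h⟩]; exact Nat.zero_le _

end

end Crest.Agent.R318
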