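import Mathlib
import Crest.Prelude.Def_BinPacking

/-! Counting lemmas for multisets and transport of packings. -/

set_option autoImplicit false

namespace Crest.Agent.R318

open Crest.BinPacking

section count
variable {α β : Type*}

open Classical in
/-- Number of elements with property `P` (no decidability instance). -/
noncomputable def cnt (T : Multiset α) (P : α → Prop) : ℕ := T.countP P

theorem cnt_eq (T : Multiset α) (P : α → Prop) [DecidablePred P] : cnt T P = T.countP P := by
  unfold cnt; congr

@[simp] theorem cnt_zero (P : α → Prop) : cnt (0 : Multiset α) P = 0 := by simp [cnt]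

theorem cnt_cons (a : α) (T : Multiset α) (P : α → Prop) [Decidable (P a)] :
    cnt (a ::ₘ T) P = cnt T P + if P a then 1 else 0 := by
  unfold cnt; rw [Multiset.countP_cons]; congr

theorem cnt_singleton (a : α) (P : α → Prop) [Decidable (P a)] :
    cnt {a} P = if P a then 1 else 0 := by
  rw [← Multiset.cons_zero, cnt_cons]; simp

@[simp] theorem cnt_add (T L : Multiset α) (P : α → Prop) : cnt (T + L) P = cnt T P + cnt L P := by
  simp [cnt]

@[simp] theorem cnt_nsmul (n : ℕ) (T : Multiset α) (P : α → Prop) :
    cnt (n • T) P = n * cnt T P := by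
  simp [cnt, Multiset.countP_nsmul]

theorem cnt_sum {ι : Type*} (s : Finset ι) (f : ι → Multiset α) (P : α → Prop) :
    cnt (∑ i ∈ s, f i) P = ∑ i ∈ s, cnt (f i) P := by
  classical
  induction s using Finset.induction_on with
  | empty => simp
  | insert a s ha ih => simp [Finset.sum_insert ha, ih]

theorem cnt_map (f : α → β) (T : Multiset α) (P : β → Prop) :
    cnt (T.map f) P = cnt T fun a => P (f a) := by
  classical
  rw [cnt_eq, cnt_eq, Multiset.countP_map, Multiset.countP_eq_card_filter]

theorem cnt_le_of_le {T L : Multiset α} (h : T ≤ L) (P : α → Prop) : cnt T P ≤ cnt L P := by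
  classical
  rw [cnt_eq, cnt_eq]; exact Multiset.countP_le_of_le _ h

theorem cnt_le_card (T : Multiset α) (P : α → Prop) : cnt T P ≤ T.card := by
  classical
  rw [cnt_eq]; exact Multiset.countP_le_card _ _

theorem cnt_filter (T : Multiset α) (Q P : α → Prop) [DecidablePred Q] :
    cnt (T.filter Q) P = cnt T fun a => P a ∧ Q a := by
  classical
  rw [cnt_eq, cnt_eq, Multiset.countP_filter]

theorem cnt_eq_zero {T : Multiset α} {P : α → Prop} : cnt T P = 0 ↔ ∀ a ∈ T, ¬ P a := by
  classical
  rw [cnt_eq]; exact Multiset.countP_eq_zero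

theorem cnt_pos {T : Multiset α} {P : α → Prop} : 0 < cnt T P ↔ ∃ a ∈ T, P a := by
  classical
  rw [cnt_eq]; exact Multiset.countP_pos

theorem cnt_eq_card {T : Multiset α} {P : α → Prop} (h : ∀ a ∈ T, P a) : cnt T P = T.card := by
  classical
  rw [cnt_eq]; exact Multiset.countP_eq_card.2 h

theorem cnt_replicate (n : ℕ) (a : α) (P : α → Prop) [Decidable (P a)] :
    cnt (Multiset.replicate n a) P = if P a then n else 0 := by
  rw [← Multiset.nsmul_singleton, cnt_nsmul, cnt_singleton]; simp

theorem cnt_mono (T : Multiset α) (P Q : α → Prop)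
    (h : ∀ a ∈ T, P a → Q a) : cnt T P ≤ cnt T Q := by
  classical
  induction T using Multiset.induction_on with
  | empty => simp
  | cons a T ih =>
    have h1 := ih fun b hb => h b (Multiset.mem_cons_of_mem hb)
    have h2 := h a (Multiset.mem_cons_self _ _)
    simp only [cnt_cons]
    by_cases hp : P a
    · simp [hp, h2 hp, h1]
    · by_cases hq : Q a <;> simp [hp, hq] <;> omega

theorem cnt_congr (T : Multiset α) (P Q : α → Prop)
    (h : ∀ a ∈ T, P a ↔ Q a) : cnt T P = cnt T Q :=
  le_antisymm (cnt_mono T P Q fun a ha => (h a ha).1) (cnt_mono T Q P fun a ha => (h a ha).2)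

theorem cnt_le_add (T : Multiset α) (P Q R : α → Prop) (h : ∀ a ∈ T, P a → Q a ∨ R a) :
    cnt T P ≤ cnt T Q + cnt T R := by
  classical
  induction T using Multiset.induction_on with
  | empty => simp
  | cons a T ih =>
    have h1 := ih fun b hb => h b (Multiset.mem_cons_of_mem hb)
    have h2 := h a (Multiset.mem_cons_self _ _)
    simp only [cnt_cons]
    by_cases hp : P a <;> by_cases hq : Q a <;> by_cases hr : R a <;> simp_all <;> omega

theorem add_le_cnt (T : Multiset α) (P Q R : α → Prop)
    (hQ : ∀ a ∈ T, Q a → P a) (hR : ∀ a ∈ T, R a → P a)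
    (hd : ∀ a ∈ T, Q a → R a → False) :
    cnt T Q + cnt T R ≤ cnt T P := by
  classical
  induction T using Multiset.induction_on with
  | empty => simp
  | cons a T ih =>
    have h1 := ih (fun b hb => hQ b (Multiset.mem_cons_of_mem hb))
      (fun b hb => hR b (Multiset.mem_cons_of_mem hb))
      (fun b hb => hd b (Multiset.mem_cons_of_mem hb))
    have h2 := hQ a (Multiset.mem_cons_self _ _)
    have h3 := hR a (Multiset.mem_cons_self _ _)
    have h4 := hd a (Multiset.mem_cons_self _ _)
    simp only [cnt_cons]
    by_cases hp : P a <;> by_cases hq : Q a <;> by_cases hr : R a <;> simp_all <;> omega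

theorem cnt_le_sum {ι : Type*} (s : Finset ι) (T : Multiset α) (P : α → Prop)
    (Q : ι → α → Prop) (h : ∀ a ∈ T, P a → ∃ i ∈ s, Q i a) :
    cnt T P ≤ ∑ i ∈ s, cnt T (Q i) := by
  classical
  induction T using Multiset.induction_on with
  | empty => simp
  | cons a T ih =>
    have h1 := ih fun b hb => h b (Multiset.mem_cons_of_mem hb)
    have h2 := h a (Multiset.mem_cons_self _ _)
    simp only [cnt_cons, Finset.sum_add_distrib]
    by_cases hp : P a
    · obtain ⟨i, hi, hq⟩ := h2 hp
      have : (1 : ℕ) ≤ ∑ i ∈ s, if Q i a then 1 else 0 := by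
        have := Finset.single_le_sum (f := fun i => if Q i a then 1 else 0)
          (fun _ _ => Nat.zero_le _) hi
        simpa [hq] using this
      simp only [hp, if_true]; omega
    · simp only [hp, if_false]; omega

theorem cnt_le_card_mul {ι : Type*} (s : Finset ι) (T : Multiset α) (P : α → Prop)
    (Q : ι → α → Prop) (e : ℕ)
    (h : ∀ a ∈ T, P a → ∃ i ∈ s, Q i a) (he : ∀ i ∈ s, cnt T (Q i) ≤ e) :
    cnt T P ≤ s.card * e :=
  (cnt_le_sum s T P Q h).trans (by simpa using Finset.sum_le_card_nsmul s _ e he)

theorem sum_le_cnt {ι : Type*} (s : Finset ι) (T : Multiset α) (P : α → Prop)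
    (Q : ι → α → Prop) (h : ∀ a ∈ T, ∀ i ∈ s, Q i a → P a)
    (hd : ∀ a ∈ T, ∀ i ∈ s, ∀ j ∈ s, Q i a → Q j a → i = j) :
    ∑ i ∈ s, cnt T (Q i) ≤ cnt T P := by
  classical
  induction T using Multiset.induction_on with
  | empty => simp
  | cons a T ih =>
    have h1 := ih (fun b hb => h b (Multiset.mem_cons_of_mem hb))
      (fun b hb => hd b (Multiset.mem_cons_of_mem hb))
    have h2 := h a (Multiset.mem_cons_self _ _)
    have h3 := hd a (Multiset.mem_cons_self _ _)
    simp only [cnt_cons, Finset.sum_add_distrib]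
    have : (∑ i ∈ s, if Q i a then 1 else 0) ≤ if P a then 1 else 0 := by
      rw [Finset.sum_boole]
      by_cases hp : P a
      · simp only [hp, if_true, Nat.cast_id]
        rw [Finset.card_le_one]
        intro i hi j hj
        simp only [Finset.mem_filter] at hi hj
        exact h3 i hi.1 j hj.1 hi.2 hj.2
      · simp only [hp, if_false, Nat.cast_id, nonpos_iff_eq_zero, Finset.card_eq_zero,
          Finset.filter_eq_empty_iff]
        exact fun i hi hq => hp (h2 i hi hq)
    omega

theorem cnt_le_of_map_le {γ : Type*} {f : α → γ} {g : β → γ} {T : Multiset α} {L : Multiset β}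
    (h : T.map f ≤ L.map g) (P : γ → Prop) :
    cnt T (fun a => P (f a)) ≤ cnt L fun a => P (g a) := by
  rw [← cnt_map f T P, ← cnt_map g L P]
  exact cnt_le_of_le h _

/-- If `T ≤ L` misses at most `m` elements with property `Z`, it misses at most `m` elements with
a stronger property. -/
theorem cnt_le_of_defect {T L : Multiset α} (h : T ≤ L) (Z P : α → Prop)
    (hP : ∀ a ∈ L, P a → Z a) (m : ℕ) (hm : cnt L Z ≤ cnt T Z + m) :
    cnt L P ≤ cnt T P + m := by
  obtain ⟨R, rfl⟩ := Multiset.le_iff_exists_add.1 h
  rw [cnt_add] at hm ⊢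
  have := cnt_mono R P Z fun a ha => hP a (Multiset.mem_add.2 (Or.inr ha))
  omega

end count

theorem map_fsum {α β ι : Type*} (f : α → β) (s : Finset ι) (g : ι → Multiset α) :
    (∑ i ∈ s, g i).map f = ∑ i ∈ s, (g i).map f :=
  map_sum (Multiset.mapAddMonoidHom f) g s

theorem fsum_singleton {α ι : Type*} (s : Finset ι) (g : ι → α) :
    ∑ i ∈ s, ({g i} : Multiset α) = s.val.map g := by
  rw [← Finset.sum_multiset_singleton, map_fsum]; simp

theorem exists_equiv_of_map_eq {α β γ : Type*} [Fintype α] [Fintype β] (f : α → γ) (g : β → γ)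
    (h : Finset.univ.val.map f = Finset.univ.val.map g) : ∃ e : α ≃ β, ∀ a, g (e a) = f a := by
  classical
  have hc : ∀ c, Fintype.card {a // f a = c} = Fintype.card {b // g b = c} := by
    intro c
    have := congrArg (Multiset.count c) h
    rw [Multiset.count_map, Multiset.count_map] at this
    rw [Fintype.card_subtype, Fintype.card_subtype]
    simpa [Finset.card, Finset.filter, eq_comm] using this
  exact ⟨Equiv.ofFiberEquiv fun c => Fintype.equivOfCardEq (hc c),
    fun a => Equiv.ofFiberEquiv_map _ a⟩

theorem packsInto_of_map_eq {α β : Type*} [Fintype α] [Fintype β] {f : α → ℚ} {g : β → ℚ}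
    (h : Finset.univ.val.map f = Finset.univ.val.map g) {N : ℕ} (hp : PacksInto g N) :
    PacksInto f N := by
  obtain ⟨e, he⟩ := exists_equiv_of_map_eq f g h
  obtain ⟨b, hb⟩ := hp
  refine ⟨fun a => b (e a), fun i => ?_⟩
  convert hb i using 1
  refine Finset.sum_bij (fun a _ => e a) ?_ ?_ ?_ ?_
  · intro a ha; simpa using ha
  · intro a _ a' _ h; exact e.injective h
  · intro x hx; exact ⟨e.symm x, by simpa using hx, by simp⟩
  · intro a _; exact (he a).symm

theorem univ_map_get {γ : Type*} (l : List γ) :
    Finset.univ.val.map (fun i : Fin l.length => l.get i) = (l : Multiset γ) := by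
  rw [Fin.univ_val_map, List.ofFn_get]

theorem univ_map_three {γ δ : Type*} (l : List δ) (f : Fin 3 → δ → γ) :
    Finset.univ.val.map (fun p : Fin l.length × Fin 3 => f p.2 (l.get p.1)) =
      (l : Multiset δ).map (f 0) + (l : Multiset δ).map (f 1) + (l : Multiset δ).map (f 2) := by
  classical
  rw [← univ_map_get l]
  ext c
  simp only [Multiset.count_add, Multiset.map_map, Multiset.count_map]
  have key : ∀ {ι : Type} [Fintype ι] (p : ι → Prop) [DecidablePred p],
      Multiset.card (Multiset.filter p Finset.univ.val) = ∑ i, if p i then 1 else 0 := by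
    intro ι _ p _
    rw [Finset.sum_boole]; rfl
  simp only [key, Fintype.sum_prod_type, Fin.sum_univ_three, Finset.sum_add_distrib,
    Function.comp]

end Crest.Agent.R318
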