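import Crest.Agent.R318.Gap

/-! Record systems of locally linked clause cells and variable cells. -/

set_option autoImplicit false
set_option maxHeartbeats 400000

namespace Crest.Agent.R318

/-- Positions. -/
abbrev Pos := ℕ × ℕ
/-- Kinds: local to a position, or the link `s` of a clause position. -/
abbrev Kd := Pos × Option ℕ

/-- A record of a clause cell; tokens of slot `s` are kept when `keep s`. -/
def clRec (keep : ℕ → Bool) (c : Pos) (g : GRec) : Rec Pos Kd :=
  (c, (c, g.1), g.2.1, g.2.2.1, g.1.elim g.2.2.2 fun s => if keep s then g.2.2.2 else 0)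

/-- Left end of the `j`-th tower on side `b` of a variable cell. -/
def tpos (n : ℕ) (b : Bool) (j : ℕ) : ℕ := (if b then 0 else 4 * n + 1) + 2 * j

/-- Kind of a tower. -/
def tkd (p : Pos) (o : Option Pos) (s : ℕ) : Kd := o.elim (p, none) fun c => (c, some s)

/-- Length of a tower. -/
def tex (o : Option Pos) (len : ℚ) : ℚ := o.elim 0 fun _ => len

/-- The clause linked to the `j`-th tower. -/
def toc (n : ℕ) (bf : ℕ → ℕ × ℚ) (occ : ℕ → Bool → Option Pos) (b : Bool) (j : ℕ) : Option Pos :=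
  if j < n then occ (bf j).1 b else none

/-- A record of a variable cell. -/
def vaRec (n : ℕ) (bf : ℕ → ℕ × ℚ) (occ : ℕ → Bool → Option Pos) (p : Pos) (b : Bool) (j : ℕ) :
    Rec Pos Kd :=
  (p, tkd p (toc n bf occ b j) (bf j).1, (tpos n b j : ℚ) + tex (toc n bf occ b j) (bf j).2,
    (tpos n b j : ℚ), if j = n ∧ b = true then (2 * n : ℚ) else 0)

/-- The gadget together with a nominal record list and an enumeration of its bundles. -/
structure Gad (q L h : ℕ) (D : Dat) (G₀ : Multiset GRec) (n : ℕ) (bf : ℕ → ℕ × ℚ) : Prop where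
  lo : ∀ t ∈ D.Lo, 0 ≤ t ∧ t ≤ 1
  bn : ∀ j < n, (bf j).1 < q ∧ 0 < (bf j).2 ∧ (bf j).2 ≤ 1
  hBn : D.Bn = (Multiset.range n).map bf
  gX : G₀.map (fun g => (g.1, g.2.1)) = D.X
  gY : G₀.map (fun g => g.2.2.1) = D.Y
  gW : G₀.map (fun g => (g.1, g.2.2.2)) = D.W L
  sol : ∀ i < q, Sol L D 0 i
  sound : ∀ S : Multiset (ℚ × ℚ),
    (∀ lam, 0 ≤ lam → 5 * cnt S (fun I => lam < I.2 - I.1) ≤ D.av L lam) →
    ∃ θ, (h : ℤ) ≤ D.base θ ∧ ∀ I ∈ S, ¬ (I.1 ≤ θ ∧ θ < I.2)

/-- A formula laid out on positions. -/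
structure Sys (Cs Vs : Finset Pos) (lit : Pos → ℕ → Option (Pos × Bool))
    (occ : Pos → ℕ → Bool → Option Pos) : Prop where
  disj : ∀ c ∈ Cs, c ∉ Vs
  lit_mem : ∀ c ∈ Cs, ∀ s p b, lit c s = some (p, b) → p ∈ Vs
  occ_iff : ∀ p s b c, occ p s b = some c ↔ c ∈ Cs ∧ lit c s = some (p, b)

section
variable (L : ℕ) (G₀ : Multiset GRec) (n : ℕ) (bf : ℕ → ℕ × ℚ) (Cs Vs : Finset Pos)
  (lit : Pos → ℕ → Option (Pos × Bool)) (occ : Pos → ℕ → Bool → Option Pos)

/-- The records of a clause cell. -/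
def clCell (c : Pos) : Multiset (Rec Pos Kd) := G₀.map (clRec (fun s => (lit c s).isSome) c)

/-- The records of a variable cell. -/
def vaCell (p : Pos) : Multiset (Rec Pos Kd) :=
  L • ∑ b : Bool, (Multiset.range (n + 1)).map (vaRec n bf (occ p) p b)

/-- All records. -/
def allRecs : Multiset (Rec Pos Kd) :=
  ∑ c ∈ Cs, clCell G₀ lit c + ∑ p ∈ Vs, vaCell L n bf occ p

end

section
variable {q L h : ℕ} {D : Dat} {G₀ : Multiset GRec} {n : ℕ} {bf : ℕ → ℕ × ℚ} {Cs Vs : Finset Pos}
  {lit : Pos → ℕ → Option (Pos × Bool)} {occ : Pos → ℕ → Bool → Option Pos}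

theorem clRec_W (hg : Gad q L h D G₀ n bf) {G : Multiset GRec}
    (hG : G.map (fun g => (g.1, g.2.2.2)) = D.W L) (keep : ℕ → Bool) (c : Pos) :
    (G.map (clRec keep c)).map Wd = D.Lo.map (fun t => ((c, none), t)) +
      L • (Multiset.range n).map fun j =>
        ((c, some (bf j).1), if keep (bf j).1 then (bf j).2 else 0) := by
  have := congrArg (Multiset.map fun a : Option ℕ × ℚ =>
    (((c, a.1) : Kd), a.1.elim a.2 fun s => if keep s then a.2 else 0)) hG
  simpa [Dat.W, Multiset.map_nsmul, hg.hBn, Wd, clRec, Function.comp_def] using this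

theorem mem_vaCell {p : Pos} {r : Rec Pos Kd} (hr : r ∈ vaCell L n bf occ p) :
    ∃ b, ∃ j ≤ n, r = vaRec n bf (occ p) p b j := by
  obtain ⟨b, -, hb⟩ := Multiset.mem_sum.1 (Multiset.mem_of_mem_nsmul hr)
  obtain ⟨j, hj, rfl⟩ := Multiset.mem_map.1 hb
  exact ⟨b, j, Nat.lt_succ_iff.1 (Multiset.mem_range.1 hj), rfl⟩

theorem mem_allRecs {r : Rec Pos Kd} (hr : r ∈ allRecs L G₀ n bf Cs Vs lit occ) :
    (∃ c ∈ Cs, r ∈ clCell G₀ lit c) ∨ ∃ p ∈ Vs, r ∈ vaCell L n bf occ p := by
  simpa only [allRecs, Multiset.mem_add, Multiset.mem_sum] using hr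

theorem cell_of_cl {c : Pos} {r : Rec Pos Kd} (hr : r ∈ clCell G₀ lit c) :
    r.1 = c ∧ r.2.1.1 = c := by
  obtain ⟨g, -, rfl⟩ := Multiset.mem_map.1 hr
  exact ⟨rfl, rfl⟩

theorem cell_of_va {p : Pos} {r : Rec Pos Kd} (hr : r ∈ vaCell L n bf occ p) : r.1 = p := by
  obtain ⟨b, j, -, rfl⟩ := mem_vaCell hr
  rfl

theorem exchange (hs : Sys Cs Vs lit occ) (σ : Pos → Bool) (s : ℕ) (len : ℚ) :
    ∑ c ∈ Cs, ({((c, some s), if (lit c s).any fun a => σ a.1 == a.2 then len else 0)} :
        Multiset (Kd × ℚ)) +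
      ∑ p ∈ Vs, ∑ b : Bool, {(tkd p (occ p s b) s, if σ p = b then 0 else tex (occ p s b) len)} =
    ∑ c ∈ Cs, {((c, some s), if (lit c s).isSome then len else 0)} +
      ∑ p ∈ Vs, ∑ b : Bool, {(tkd p (occ p s b) s, 0)} := by
  have key : ∀ f : Pos → Multiset (Kd × ℚ),
      ∑ p ∈ Vs, ∑ b : Bool, ∑ c ∈ Cs, (if lit c s = some (p, b) ∧ σ p ≠ b then f c else 0) =
      ∑ c ∈ Cs, if (lit c s).any fun a => σ a.1 != a.2 then f c else 0 := fun f => by
    rw [← Finset.sum_product', Finset.sum_comm]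
    refine Finset.sum_congr rfl fun c hc => ?_
    rcases e : lit c s with _ | ⟨p, b⟩
    · simp
    · rw [Finset.sum_eq_single (p, b)]
      · simp
      · rintro ⟨p', b'⟩ _ hne
        rw [if_neg]; rintro ⟨h, -⟩; exact hne (Option.some.inj h).symm
      · intro h; exact absurd (by simpa using hs.lit_mem c hc s p b e) h
  have h1 : ∑ c ∈ Cs, ({((c, some s), if (lit c s).any fun a => σ a.1 == a.2 then len else 0)} :
        Multiset (Kd × ℚ)) +
      ∑ c ∈ Cs, (if (lit c s).any fun a => σ a.1 != a.2 then {((c, some s), len)} else 0) =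
      ∑ c ∈ Cs, {((c, some s), if (lit c s).isSome then len else 0)} +
      ∑ c ∈ Cs, (if (lit c s).any fun a => σ a.1 != a.2 then {((c, some s), 0)} else 0) := by
    rw [← Finset.sum_add_distrib, ← Finset.sum_add_distrib]
    refine Finset.sum_congr rfl fun c _ => ?_
    rcases lit c s with _ | ⟨p, b⟩
    · simp
    · by_cases e : σ p = b <;> simp [e, add_comm]
  have h2 : ∑ p ∈ Vs, ∑ b : Bool,
        ({(tkd p (occ p s b) s, if σ p = b then 0 else tex (occ p s b) len)} : Multiset (Kd × ℚ)) +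
      ∑ c ∈ Cs, (if (lit c s).any fun a => σ a.1 != a.2 then {((c, some s), 0)} else 0) =
      ∑ p ∈ Vs, ∑ b : Bool, {(tkd p (occ p s b) s, 0)} +
      ∑ c ∈ Cs, (if (lit c s).any fun a => σ a.1 != a.2 then {((c, some s), len)} else 0) := by
    rw [← key, ← key, ← Finset.sum_add_distrib, ← Finset.sum_add_distrib]
    refine Finset.sum_congr rfl fun p _ => ?_
    rw [← Finset.sum_add_distrib, ← Finset.sum_add_distrib]
    refine Finset.sum_congr rfl fun b _ => ?_
    by_cases e : σ p = b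
    · simp [e]
    rcases eo : occ p s b with _ | c
    · have : ∀ c ∈ Cs, lit c s ≠ some (p, b) := fun c hc h => by
        have := (hs.occ_iff p s b c).2 ⟨hc, h⟩
        simp [eo] at this
      rw [Finset.sum_eq_zero fun c hc => if_neg fun h => this c hc h.1,
        Finset.sum_eq_zero fun c hc => if_neg fun h => this c hc h.1]
      simp [tex]
    · have a1 := (hs.occ_iff p s b c).1 eo
      have a2 : ∀ c' ∈ Cs, c' ≠ c → lit c' s ≠ some (p, b) := fun c' hc' hne h => by
        have := (hs.occ_iff p s b c').2 ⟨hc', h⟩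
        rw [eo] at this; exact hne (Option.some.inj this).symm
      rw [Finset.sum_eq_single_of_mem c a1.1 fun c' hc' hne => if_neg fun h => a2 c' hc' hne h.1,
        Finset.sum_eq_single_of_mem c a1.1 fun c' hc' hne => if_neg fun h => a2 c' hc' hne h.1]
      simp [tex, tkd, e, a1.2, add_comm]
  have h3 := congrArg₂ (· + ·) h1 h2
  generalize (∑ c ∈ Cs, (if (lit c s).any fun a => σ a.1 != a.2 then
    ({((c, some s), len)} : Multiset (Kd × ℚ)) else 0)) = A at h3
  generalize (∑ c ∈ Cs, (if (lit c s).any fun a => σ a.1 != a.2 then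
    ({((c, some s), 0)} : Multiset (Kd × ℚ)) else 0)) = B at h3
  refine add_right_cancel (b := A + B) ?_
  calc _ = _ := by abel
    _ = _ := h3
    _ = _ := by abel

theorem shape {α : Type*} (Lo : Pos → Multiset α) (a : Pos → ℕ → α) (w : Pos → Bool → ℕ → α) :
    ∑ c ∈ Cs, (Lo c + L • (Multiset.range n).map (a c)) +
      ∑ p ∈ Vs, L • ∑ b : Bool, (Multiset.range (n + 1)).map (w p b) =
    ∑ c ∈ Cs, Lo c + L • (∑ j ∈ Finset.range n, (∑ c ∈ Cs, {a c j} +
      ∑ p ∈ Vs, ∑ b : Bool, {w p b j}) + ∑ p ∈ Vs, ∑ b : Bool, {w p b n}) := by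
  have e : ∀ (k : ℕ) (f : ℕ → α), (Multiset.range k).map f = ∑ j ∈ Finset.range k, {f j} :=
    fun k f => (fsum_singleton (Finset.range k) f).symm
  simp only [e, Finset.sum_range_succ, Finset.sum_add_distrib, ← Finset.smul_sum, nsmul_add]
  rw [Finset.sum_comm (s := Finset.range n) (t := Cs),
    Finset.sum_comm (s := Finset.range n) (t := Vs)]
  simp only [Finset.sum_comm (s := Finset.range n) (t := (Finset.univ : Finset Bool))]
  abel

theorem tex_bound (hg : Gad q L h D G₀ n bf) (oc : ℕ → Bool → Option Pos) (b : Bool) (j : ℕ) :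
    0 ≤ tex (toc n bf oc b j) (bf j).2 ∧ tex (toc n bf oc b j) (bf j).2 ≤ 1 := by
  unfold toc
  split_ifs with hj
  · have := hg.bn j hj
    rcases oc (bf j).1 b with _ | c <;> simp [tex, this.2.1.le, this.2.2]
  · simp [tex]

theorem W_nonneg (hg : Gad q L h D G₀ n bf) {G : Multiset GRec}
    (hG : G.map (fun g => (g.1, g.2.2.2)) = D.W L) {g : GRec} (hgG : g ∈ G) :
    0 ≤ g.2.2.2 ∧ g.2.2.2 ≤ 1 ∧ ∀ s, g.1 = some s → s < q := by
  have := Multiset.mem_map_of_mem (fun g : GRec => (g.1, g.2.2.2)) hgG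
  rw [hG] at this
  simp only [Dat.W, Multiset.mem_add, Multiset.mem_map] at this
  rcases this with ⟨t, ht, e⟩ | h
  · obtain ⟨e1, e2⟩ := Prod.ext_iff.1 e
    simp only at e1 e2
    rw [← e1, ← e2]; exact ⟨(hg.lo t ht).1, (hg.lo t ht).2, by simp⟩
  · obtain ⟨b, hb, e⟩ := Multiset.mem_map.1 (Multiset.mem_of_mem_nsmul h)
    rw [hg.hBn] at hb
    obtain ⟨j, hj, rfl⟩ := Multiset.mem_map.1 hb
    have := hg.bn j (Multiset.mem_range.1 hj)
    obtain ⟨e1, e2⟩ := Prod.ext_iff.1 e
    simp only at e1 e2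
    rw [← e1, ← e2]; exact ⟨this.2.1.le, this.2.2, by simpa using this.1⟩

theorem complete (hg : Gad q L h D G₀ n bf) (hs : Sys Cs Vs lit occ) (σ : Pos → Bool)
    (hσ : ∀ c ∈ Cs, ∃ i < q, ∃ p b, lit c i = some (p, b) ∧ σ p = b) :
    ∃ T : Multiset (Rec Pos Kd), T.map Xd = (allRecs L G₀ n bf Cs Vs lit occ).map Xd ∧
      T.map Yd = (allRecs L G₀ n bf Cs Vs lit occ).map Yd ∧
      T.map Wd = (allRecs L G₀ n bf Cs Vs lit occ).map Wd ∧ ∀ r ∈ T, Fits r := by
  have : ∀ c ∈ Cs, ∃ G : Multiset GRec, G.map (fun g => (g.1, g.2.1)) = D.X ∧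
      G.map (fun g => g.2.2.1) = D.Y ∧ G.map (fun g => (g.1, g.2.2.2)) = D.W L ∧
      ∀ g ∈ G, Fits (clRec (fun s => (lit c s).any fun a => σ a.1 == a.2) c g) := fun c hc => by
    obtain ⟨i, hi, p, b, e1, e2⟩ := hσ c hc
    obtain ⟨G, h1, h2, h3, h4⟩ := hg.sol i hi
    simp only [Multiset.map_zero, add_zero] at h3
    refine ⟨G, h1, h2, h3, fun g hG => ?_⟩
    have h0 := (W_nonneg hg h3 hG).1
    obtain ⟨k, u, w, t⟩ := g
    simp only [Fits, clRec]
    rcases h4 _ hG with h | ⟨h | h, h'⟩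
    · rcases k with _ | s
      · simp only [Option.elim] at *; linarith
      · simp only [Option.elim] at *; split_ifs <;> linarith
    · simp only at h; subst h; exact h'
    · simp only at h; subst h; simpa [e1, e2] using h'
  choose! G hX hY hW hF using this
  let v : Pos → Bool → ℕ → Rec Pos Kd := fun p b j =>
    (p, tkd p (toc n bf (occ p) b j) (bf j).1,
      (tpos n b j : ℚ) + tex (toc n bf (occ p) b j) (bf j).2,
      if σ p = b then (if j = n then (tpos n b 0 : ℚ) else tpos n b (j + 1)) else tpos n b j,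
      if σ p = b then (if j = n then (2 * n : ℚ) else 0) else tex (toc n bf (occ p) b j) (bf j).2)
  refine ⟨∑ c ∈ Cs, (G c).map (clRec (fun s => (lit c s).any fun a => σ a.1 == a.2) c) +
    ∑ p ∈ Vs, L • ∑ b : Bool, (Multiset.range (n + 1)).map (v p b), ?_, ?_, ?_, ?_⟩
  · simp only [allRecs, clCell, vaCell, Multiset.map_add, map_fsum, Multiset.map_nsmul,
      Multiset.map_map]
    congr 1
    refine Finset.sum_congr rfl fun c hc => ?_
    have := congrArg (Multiset.map fun a : Option ℕ × ℚ => (c, ((c, a.1) : Kd), a.2))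
      ((hX c hc).trans hg.gX.symm)
    simp only [Multiset.map_map] at this
    exact this
  · simp only [allRecs, clCell, vaCell, Multiset.map_add, map_fsum, Multiset.map_nsmul,
      Multiset.map_map]
    congr 1
    · refine Finset.sum_congr rfl fun c hc => ?_
      have := congrArg (Multiset.map fun a : ℚ => (c, a)) ((hY c hc).trans hg.gY.symm)
      simp only [Multiset.map_map] at this
      exact this
    · refine Finset.sum_congr rfl fun p _ => congrArg _ (Finset.sum_congr rfl fun b _ => ?_)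
      by_cases e : σ p = b
      · have := range_rot (fun j => (p, (tpos n b j : ℚ))) n
        simp only [Multiset.range_succ, Multiset.map_cons, Function.comp_def, v, Yd, vaRec, e,
          if_true]
        rw [Multiset.map_congr rfl (g := fun j => (p, (tpos n b (j + 1) : ℚ))) fun j hj => by
          rw [if_neg (Multiset.mem_range.1 hj).ne]]
        simp only [← Multiset.singleton_add]
        rw [add_comm, this, add_comm]
      · simp [v, Yd, vaRec, e, Function.comp_def]
  · simp only [allRecs, clCell, vaCell, Multiset.map_add, map_fsum, Multiset.map_nsmul]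
    rw [Finset.sum_congr rfl fun c hc => clRec_W hg (hW c hc) _ c,
      Finset.sum_congr rfl fun c _ => clRec_W hg hg.gW _ c]
    simp only [Multiset.map_map]
    rw [shape, shape]
    congr 3
    · refine Finset.sum_congr rfl fun j hj => ?_
      have hj := Finset.mem_range.1 hj
      have := exchange hs σ (bf j).1 (bf j).2
      simpa only [Function.comp_def, v, Wd, vaRec, toc, hj, hj.ne, if_true, if_false,
        false_and] using this
    · refine Finset.sum_congr rfl fun p _ => ?_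
      cases e : σ p
      · simp only [Fintype.sum_bool, v, Wd, vaRec, toc, tex, e, Function.comp_def]
        rw [add_comm]; simp [tkd]
      · simp [v, Wd, vaRec, toc, tex, e]
  · intro r hr
    simp only [Multiset.mem_add, Multiset.mem_sum] at hr
    rcases hr with ⟨c, hc, hr⟩ | ⟨p, _, hr⟩
    · obtain ⟨g, hg', rfl⟩ := Multiset.mem_map.1 hr
      exact hF c hc g hg'
    · obtain ⟨b, -, hb⟩ := Multiset.mem_sum.1 (Multiset.mem_of_mem_nsmul hr)
      obtain ⟨j, hj, rfl⟩ := Multiset.mem_map.1 hb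
      have := tex_bound hg (occ p) b j
      simp only [Fits, v]
      split_ifs with h1 h2
      · subst h2; simp [toc, tex, tpos]
      · simp only [tpos]; push_cast; linarith [this.2]
      · linarith

end

end Crest.Agent.R318
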