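import Crest.Agent.R318.Basic

/-! From a multiset of sizes with a half-integral fractional packing to the two configuration
programs. -/

set_option autoImplicit false
set_option maxHeartbeats 400000

namespace Crest.Agent.R318

open Crest.BinPacking

theorem type_of_copy {m : ℕ} (σ : Fin m → ℚ) (mult : Fin m → ℕ)
    (y : Finset ((j : Fin m) × Fin (mult j)) → ℝ) (hy : CopyLPFeasible (fun i => σ i.1) y) :
    ∃ z, TypeLPFeasible σ mult z ∧ typeLPCost z = copyLPCost y := by
  classical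
  obtain ⟨h0, h1, h2⟩ := hy
  let v : Finset ((j : Fin m) × Fin (mult j)) → Fin m → ℕ :=
    fun H j => (H.filter fun i => i.1 = j).card
  have hsum : ∀ φ : (Fin m → ℕ) → ℝ, (∑ H, Finsupp.single (v H) (y H)).sum (fun c a => φ c * a) =
      ∑ H, φ (v H) * y H := fun φ => by
    rw [← Finsupp.sum_finsetSum_index (by simp) (by intros; ring)]
    exact Finset.sum_congr rfl fun H _ => Finsupp.sum_single_index (by simp)
  refine ⟨∑ H, Finsupp.single (v H) (y H), ⟨fun c => ?_, fun c hc => ?_, fun j => ?_⟩, ?_⟩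
  · rw [Finsupp.finsetSum_apply]
    exact Finset.sum_nonneg fun H _ => by
      rw [Finsupp.single_apply]; split_ifs; exacts [h0 H, le_rfl]
  · rw [Finsupp.mem_support_iff, Finsupp.finsetSum_apply] at hc
    obtain ⟨H, -, hH⟩ := Finset.exists_ne_zero_of_sum_ne_zero hc
    rw [Finsupp.single_apply] at hH
    have e : v H = c := by by_contra h; simp [h] at hH
    have := h1 H (by simpa [e] using hH)
    rw [← Finset.sum_fiberwise (s := H) (g := fun i => i.1)] at this
    refine le_trans (le_of_eq (Finset.sum_congr rfl fun j _ => ?_)) this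
    rw [Finset.sum_congr rfl (g := fun _ => σ j) fun i hi => by
      rw [(Finset.mem_filter.1 hi).2]]
    simp [← e, v, mul_comm]
  · rw [hsum fun c => (c j : ℝ)]
    have e : ∀ H, (v H j : ℝ) * y H =
        ∑ t : Fin (mult j), if (⟨j, t⟩ : (j : Fin m) × Fin (mult j)) ∈ H then y H else 0 := by
      intro H
      rw [← Finset.sum_filter, Finset.sum_const, nsmul_eq_mul]
      congr 2
      symm
      refine Finset.card_bij (fun t _ => ⟨j, t⟩) ?_ ?_ ?_
      · intro t ht; simpa using ht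
      · intro t _ t' _ h; simpa using h
      · rintro ⟨j', t⟩ hi
        simp only [Finset.mem_filter] at hi
        obtain ⟨hi, rfl⟩ := hi
        exact ⟨t, by simpa using hi, rfl⟩
    simp only [e]
    rw [Finset.sum_comm]
    have := Finset.sum_le_sum (s := Finset.univ) fun (t : Fin (mult j)) _ => h2 ⟨j, t⟩
    simpa [Finset.sum_filter] using this
  · have := hsum fun _ => 1
    simpa [typeLPCost, copyLPCost] using this

theorem type_lower {m : ℕ} (σ : Fin m → ℚ) (mult : Fin m → ℕ) (hσ : ∀ j, 0 ≤ σ j)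
    (z : (Fin m → ℕ) →₀ ℝ) (hz : TypeLPFeasible σ mult z) :
    ((∑ j ∈ Finset.univ.filter (fun j => 1 / 2 < σ j), mult j : ℕ) : ℝ) ≤ typeLPCost z := by
  obtain ⟨h0, h1, h2⟩ := hz
  push_cast
  refine (Finset.sum_le_sum fun j _ => h2 j).trans ?_
  unfold typeLPCost Finsupp.sum
  rw [Finset.sum_comm]
  refine Finset.sum_le_sum fun c hc => ?_
  rw [← Finset.sum_mul]
  refine mul_le_of_le_one_left (h0 c) ?_
  have a1 : ∑ j ∈ Finset.univ.filter (fun j => 1 / 2 < σ j), σ j * (c j : ℚ) ≤ 1 :=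
    (Finset.sum_le_sum_of_subset_of_nonneg (Finset.filter_subset _ _)
      fun j _ _ => mul_nonneg (hσ j) (by positivity)).trans (h1 c hc)
  have a2 : ∑ j ∈ Finset.univ.filter (fun j => 1 / 2 < σ j), c j < 2 := by
    by_contra hcon
    have a3 : ∃ j ∈ Finset.univ.filter (fun j => 1 / 2 < σ j), c j ≠ 0 :=
      Finset.exists_ne_zero_of_sum_ne_zero (by omega)
    have a4 : ∑ j ∈ Finset.univ.filter (fun j => 1 / 2 < σ j), (1 / 2 : ℚ) * (c j : ℚ) <
        ∑ j ∈ Finset.univ.filter (fun j => 1 / 2 < σ j), σ j * (c j : ℚ) := by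
      refine Finset.sum_lt_sum (fun j hj => ?_) ?_
      · exact mul_le_mul_of_nonneg_right (Finset.mem_filter.1 hj).2.le (by positivity)
      · obtain ⟨j, hj, hc⟩ := a3
        exact ⟨j, hj, mul_lt_mul_of_pos_right (Finset.mem_filter.1 hj).2 (by positivity)⟩
    rw [← Finset.mul_sum] at a4
    have a5 : (2 : ℚ) ≤ ∑ j ∈ Finset.univ.filter (fun j => 1 / 2 < σ j), (c j : ℚ) := by
      exact_mod_cast not_lt.1 hcon
    linarith
  exact_mod_cast Nat.lt_succ_iff.1 a2

theorem copy_half {ι : Type} [Fintype ι] [DecidableEq ι] (a : ι → ℚ) (ha : ∀ i, 0 ≤ a i) {n : ℕ}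
    (f : Fin n × Fin 3 → ℚ) (h : Finset.univ.val.map f = 2 • Finset.univ.val.map a)
    (hfit : ∀ r, ∑ k, f (r, k) ≤ 1) (hinj : ∀ r k k', f (r, k) = f (r, k') → k = k') :
    ∃ y, CopyLPFeasible a y ∧ copyLPCost y = n / 2 := by
  have h' : Finset.univ.val.map f = Finset.univ.val.map fun p : ι × Fin 2 => a p.1 := by
    rw [h, ← fsum_singleton, ← fsum_singleton, Fintype.sum_prod_type]
    simp [Finset.smul_sum]
  obtain ⟨e, he⟩ := exists_equiv_of_map_eq _ _ h'
  let H : Fin n → Finset ι := fun r => Finset.univ.image fun k => (e (r, k)).1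
  refine ⟨fun S => ∑ r, if H r = S then 1 / 2 else 0, ⟨fun S => ?_, fun S hS => ?_, fun i => ?_⟩,
    ?_⟩
  · exact Finset.sum_nonneg fun r _ => by split_ifs <;> norm_num
  · obtain ⟨r, -, hr⟩ := Finset.exists_ne_zero_of_sum_ne_zero hS
    have e1 : H r = S := by by_contra h; simp [h] at hr
    rw [← e1]
    refine (Finset.sum_image_le_of_nonneg fun i _ => ha i).trans ?_
    simp only [he]; exact hfit r
  · rw [Finset.sum_comm]
    simp only [Finset.sum_ite_eq, Finset.mem_filter, Finset.mem_univ, true_and]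
    have hm : ∀ b, i ∈ H (e.symm (i, b)).1 := fun b =>
      Finset.mem_image.2 ⟨(e.symm (i, b)).2, Finset.mem_univ _, by simp⟩
    have hne : (e.symm (i, 0)).1 ≠ (e.symm (i, 1)).1 := by
      intro h0
      have e0 := he (e.symm (i, 0))
      have e1 := he (e.symm (i, 1))
      simp only [Equiv.apply_symm_apply] at e0 e1
      have := hinj (e.symm (i, 0)).1 (e.symm (i, 0)).2 (e.symm (i, 1)).2 (by
        rw [← e0, h0, ← e1])
      have : e.symm (i, 0) = e.symm (i, 1) := Prod.ext h0 this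
      simpa using e.symm.injective this
    have := Finset.sum_le_sum_of_subset_of_nonneg
      (Finset.subset_univ ({(e.symm (i, 0)).1, (e.symm (i, 1)).1} : Finset (Fin n)))
      (f := fun r => if i ∈ H r then (1 / 2 : ℝ) else 0)
      fun r _ _ => by split_ifs <;> norm_num
    rw [Finset.sum_pair hne, if_pos (hm 0), if_pos (hm 1)] at this
    linarith
  · unfold copyLPCost
    rw [Finset.sum_comm]
    simp [div_eq_mul_inv]

theorem lp_gap (s : Multiset ℚ) (B c : ℕ) (hs : ∀ a ∈ s, 1 / 6 < a ∧ a ≤ 1)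
    (hbig : cnt s (fun a => 1 / 2 < a) = B)
    (f : Fin (2 * B) × Fin 3 → ℚ) (h : Finset.univ.val.map f = 2 • s)
    (hfit : ∀ r, ∑ k, f (r, k) ≤ 1) (hinj : ∀ r k k', f (r, k) = f (r, k') → k = k')
    (hno : ∀ (ι : Type) [Fintype ι] (a : ι → ℚ), Finset.univ.val.map a = s →
      ¬ PacksInto a (B + c)) :
    ∃ (m : ℕ) (σ : Fin m → ℚ) (mult : Fin m → ℕ) (B : ℕ),
      Function.Injective σ ∧ (∀ j, 0 < mult j) ∧ (∀ j, 1 / 6 < σ j ∧ σ j ≤ 1) ∧
      (∃ z, TypeLPFeasible σ mult z ∧ typeLPCost z = B) ∧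
      (∀ z, TypeLPFeasible σ mult z → (B : ℝ) ≤ typeLPCost z) ∧
      (∃ y : Finset ((j : Fin m) × Fin (mult j)) → ℝ,
        CopyLPFeasible (fun i => σ i.1) y ∧ copyLPCost y = B) ∧
      (∀ y : Finset ((j : Fin m) × Fin (mult j)) → ℝ,
        CopyLPFeasible (fun i => σ i.1) y → (B : ℝ) ≤ copyLPCost y) ∧
      ¬ PacksInto (fun i : (j : Fin m) × Fin (mult j) => σ i.1) (B + c) := by
  let σ : Fin s.toFinset.card → ℚ := fun j => s.toFinset.equivFin.symm j
  let mult : Fin s.toFinset.card → ℕ := fun j => s.count (σ j)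
  have hmem : ∀ j, σ j ∈ s := fun j => Multiset.mem_toFinset.1 (s.toFinset.equivFin.symm j).2
  have hs' : ∑ j, mult j • ({σ j} : Multiset ℚ) = s := by
    conv_rhs => rw [← Multiset.toFinset_sum_count_nsmul_eq s, ← Finset.sum_coe_sort]
    exact Equiv.sum_comp s.toFinset.equivFin.symm fun a => s.count a.1 • ({a.1} : Multiset ℚ)
  have hmap : Finset.univ.val.map (fun i : (j : Fin s.toFinset.card) × Fin (mult j) => σ i.1) =
      s := by
    rw [← fsum_singleton, Fintype.sum_sigma]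
    simpa using hs'
  have hσ0 : ∀ j, 0 ≤ σ j := fun j => by linarith [(hs _ (hmem j)).1]
  have hB : ∑ j ∈ Finset.univ.filter (fun j => 1 / 2 < σ j), mult j = B := by
    rw [← hbig]
    conv_rhs => rw [← hs']
    rw [cnt_sum, Finset.sum_filter]
    simp only [cnt_nsmul, cnt_singleton, mul_ite, mul_one, mul_zero]
  have low : ∀ z, TypeLPFeasible σ mult z → (B : ℝ) ≤ typeLPCost z := fun z hz =>
    hB ▸ type_lower σ mult hσ0 z hz
  obtain ⟨y, hy, hyc⟩ := copy_half (fun i : (j : Fin s.toFinset.card) × Fin (mult j) => σ i.1)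
    (fun i => hσ0 _) f (by rw [h, hmap]) hfit hinj
  have hyc' : copyLPCost y = B := by rw [hyc]; push_cast; ring
  refine ⟨_, σ, mult, B, fun j j' h => s.toFinset.equivFin.symm.injective (Subtype.ext h),
    fun j => Multiset.count_pos.2 (hmem j), fun j => hs _ (hmem j), ?_, low, ⟨y, hy, hyc'⟩,
    fun y' hy' => ?_, hno _ _ hmap⟩
  · obtain ⟨z, hz, hc⟩ := type_of_copy σ mult y hy
    exact ⟨z, hz, hc.trans hyc'⟩
  · obtain ⟨z, hz, hc⟩ := type_of_copy σ mult y' hy'
    exact hc ▸ low z hz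

end Crest.Agent.R318
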