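import Crest.Agent.R318.Basic

/-! The clause gadget: a tower of nested intervals.  It has `q` slots; it can be solved when all
tokens of one slot are available, and if only a `3/5` fraction of the tokens of every slot is
available, some point of large depth stays uncovered. -/

set_option autoImplicit false
set_option maxHeartbeats 400000

namespace Crest.Agent.R318

/-- Data of a gadget: right end points with kinds, left end points, local lengths and token
bundles `(slot, length)`. -/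
structure Dat where
  /-- right end points with their kinds -/
  X : Multiset (Option ℕ × ℚ)
  /-- left end points -/
  Y : Multiset ℚ
  /-- local lengths -/
  Lo : Multiset ℚ
  /-- token bundles -/
  Bn : Multiset (ℕ × ℚ)

/-- Union of two gadgets. -/
def Dat.add (D D' : Dat) : Dat := ⟨D.X + D'.X, D.Y + D'.Y, D.Lo + D'.Lo, D.Bn + D'.Bn⟩

/-- All lengths with their kinds; every bundle consists of `L` tokens. -/
def Dat.W (L : ℕ) (D : Dat) : Multiset (Option ℕ × ℚ) :=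
  D.Lo.map (fun t => (none, t)) + L • D.Bn.map (fun b => (some b.1, b.2))

/-- Records `(kind, u, w, t)` of a gadget. -/
abbrev GRec := Option ℕ × ℚ × ℚ × ℚ

/-- The record fits when only the tokens of slot `i` are available. -/
def GOk (i : ℕ) (g : GRec) : Prop :=
  g.2.1 ≤ g.2.2.1 ∨ ((g.1 = none ∨ g.1 = some i) ∧ g.2.1 - g.2.2.1 ≤ g.2.2.2)

/-- Solvability with the tokens of slot `i` and extra local lengths `E`. -/
def Sol (L : ℕ) (D : Dat) (E : Multiset ℚ) (i : ℕ) : Prop :=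
  ∃ G : Multiset GRec, G.map (fun g => (g.1, g.2.1)) = D.X ∧ G.map (fun g => g.2.2.1) = D.Y ∧
    G.map (fun g => (g.1, g.2.2.2)) = D.W L + E.map (fun t => (none, t)) ∧ ∀ g ∈ G, GOk i g

/-- Net depth of a point. -/
noncomputable def Dat.base (D : Dat) (θ : ℚ) : ℤ :=
  (cnt D.X fun p => θ < p.2 : ℕ) - (cnt D.Y fun w => θ < w : ℕ)

/-- Weighted number of lengths exceeding `lam`. -/
noncomputable def Dat.av (L : ℕ) (D : Dat) (lam : ℚ) : ℕ :=
  5 * cnt D.Lo (fun t => lam < t) + 3 * L * cnt D.Bn (fun b => lam < b.2)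

theorem Sol.add {L : ℕ} {D D' : Dat} {E E' : Multiset ℚ} {i : ℕ} (h : Sol L D E i)
    (h' : Sol L D' E' i) : Sol L (D.add D') (E + E') i := by
  obtain ⟨G, h1, h2, h3, h4⟩ := h
  obtain ⟨G', h1', h2', h3', h4'⟩ := h'
  refine ⟨G + G', by simp [Dat.add, h1, h1'], by simp [Dat.add, h2, h2'], ?_, ?_⟩
  · simp only [Multiset.map_add, h3, h3', Dat.add, Dat.W, nsmul_add]; abel
  · intro g hg
    rcases Multiset.mem_add.1 hg with hg | hg
    exacts [h4 g hg, h4' g hg]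

theorem Dat.base_add (D D' : Dat) (θ : ℚ) : (D.add D').base θ = D.base θ + D'.base θ := by
  simp only [Dat.base, Dat.add, cnt_add]; push_cast; ring

theorem Dat.av_add (L : ℕ) (D D' : Dat) (lam : ℚ) :
    (D.add D').av L lam = D.av L lam + D'.av L lam := by
  simp only [Dat.av, Dat.add, cnt_add]; ring

/-- Static properties of a gadget. -/
structure Good (q L : ℕ) (a : ℚ) (M : ℕ) (D : Dat) : Prop where
  lo : ∀ t ∈ D.Lo, 0 ≤ t ∧ t ≤ a
  bn : ∀ b ∈ D.Bn, b.1 < q ∧ 0 < b.2 ∧ b.2 ≤ a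
  wt : ∀ lam, 0 ≤ lam → D.av L lam ≤ M
  base : ∀ θ, 0 ≤ D.base θ

theorem Good.av_eq_zero {q L : ℕ} {a : ℚ} {M : ℕ} {D : Dat} (h : Good q L a M D) {lam : ℚ}
    (hl : a ≤ lam) : D.av L lam = 0 := by
  unfold Dat.av
  rw [cnt_eq_zero.2 fun t ht => by have := (h.lo t ht).2; simp; linarith,
    cnt_eq_zero.2 fun t ht => by have := (h.bn t ht).2.2; simp; linarith]
  simp

theorem Good.add {q L : ℕ} {a a₁ a₂ : ℚ} {M M' : ℕ} {D D' : Dat} (h : Good q L a₁ M D)
    (h' : Good q L a₂ M' D') (h₁ : a₁ ≤ a) (h₂ : a₂ ≤ a) : Good q L a (M + M') (D.add D') where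
  lo t ht := by
    rcases Multiset.mem_add.1 ht with ht | ht
    exacts [⟨(h.lo t ht).1, (h.lo t ht).2.trans h₁⟩, ⟨(h'.lo t ht).1, (h'.lo t ht).2.trans h₂⟩]
  bn t ht := by
    rcases Multiset.mem_add.1 ht with ht | ht
    exacts [⟨(h.bn t ht).1, (h.bn t ht).2.1, (h.bn t ht).2.2.trans h₁⟩,
      ⟨(h'.bn t ht).1, (h'.bn t ht).2.1, (h'.bn t ht).2.2.trans h₂⟩]
  wt lam hl := by rw [Dat.av_add]; exact Nat.add_le_add (h.wt lam hl) (h'.wt lam hl)
  base θ := by rw [Dat.base_add]; exact add_nonneg (h.base θ) (h'.base θ)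

/-- The interval `[I.1, I.2)` meets `[x, x + l)`. -/
def Meets (I : ℚ × ℚ) (x l : ℚ) : Prop := I.1 < x + l ∧ x < I.2

/-- All intervals meeting `[x, x + l)` are short relative to `l`. -/
def Short (S : Multiset (ℚ × ℚ)) (ρ x l : ℚ) : Prop :=
  ∀ I ∈ S, Meets I x l → (I.2 - I.1) * ρ ≤ l

/-- Few long intervals at all scales between `b` and `a`. -/
def Few (S : Multiset (ℚ × ℚ)) (N L : ℕ) (D : Dat) (b a : ℚ) : Prop :=
  ∀ lam, b ≤ lam → lam ≤ a → 5 * cnt S (fun I => lam < I.2 - I.1) ≤ N + D.av L lam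

/-- A deep region met only by short intervals. -/
def Deep (S : Multiset (ℚ × ℚ)) (ρ : ℚ) (D : Dat) (d : ℕ) (x l : ℚ) : Prop :=
  ∃ y l', 0 < l' ∧ x ≤ y ∧ y + l' ≤ x + l ∧ (∀ θ, y ≤ θ → θ < y + l' → (d : ℤ) ≤ D.base θ) ∧
    Short S ρ y l'

/-- Specification of gadgets of depth `d`. -/
def Spec (q L d : ℕ) (E : ℚ → ℕ → Multiset ℚ) : Prop :=
  ∀ N : ℕ, ∃ R M : ℕ, ∀ ρ : ℚ, R ≤ ρ → ∀ l a x : ℚ, 0 < l → 0 < a →
    ∃ (b : ℚ) (D : Dat), 0 < b ∧ b ≤ a ∧ Good q L a M D ∧ (∀ i < q, Sol L D (E l i) i) ∧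
      ∀ S, Short S ρ x l → Few S N L D b a → Deep S ρ D d x l

/-- The empty gadget. -/
def Dat.zero : Dat := ⟨0, 0, 0, 0⟩

theorem good_zero (q L : ℕ) (a : ℚ) : Good q L a 0 Dat.zero :=
  ⟨by simp [Dat.zero], by simp [Dat.zero], by simp [Dat.zero, Dat.av],
    by simp [Dat.zero, Dat.base]⟩

theorem sol_zero (L i : ℕ) : Sol L Dat.zero 0 i := ⟨0, by simp [Dat.zero, Dat.W]⟩

theorem spec_zero (q L : ℕ) : Spec q L 0 fun _ _ => 0 := fun _ =>
  ⟨0, 0, fun _ _ l a x hl ha => ⟨a, Dat.zero, ha, le_rfl, good_zero q L a,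
    fun i _ => sol_zero L i, fun _ hS _ =>
      ⟨x, l, hl, le_rfl, le_rfl, fun θ _ _ => (good_zero q L a).base θ, hS⟩⟩⟩

theorem row {q L d : ℕ} {E : ℕ → ℚ → ℕ → Multiset ℚ} (hE : ∀ j, Spec q L d (E j)) (r N : ℕ) :
    ∃ R M : ℕ, ∀ ρ : ℚ, R ≤ ρ → ∀ (l a : ℚ) (x : ℕ → ℚ), 0 < l → 0 < a →
      ∃ (b : ℚ) (D : Dat), 0 < b ∧ b ≤ a ∧ Good q L a M D ∧
        (∀ i < q, Sol L D (∑ j ∈ Finset.range r, E j l i) i) ∧
        ∀ j < r, ∀ S, Short S ρ (x j) l → Few S N L D b a → Deep S ρ D d (x j) l := by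
  induction r with
  | zero =>
    exact ⟨0, 0, fun _ _ l a x _ ha => ⟨a, Dat.zero, ha, le_rfl, good_zero q L a,
      fun i _ => by simpa using sol_zero L i, fun j hj => absurd hj (by omega)⟩⟩
  | succ r ih =>
    obtain ⟨R₁, M₁, h₁⟩ := ih
    obtain ⟨R₂, M₂, h₂⟩ := hE r (N + M₁)
    refine ⟨max R₁ R₂, M₁ + M₂, fun ρ hρ l a x hl ha => ?_⟩
    push_cast at hρ
    obtain ⟨b₁, D₁, hb₁, hba, g₁, s₁, t₁⟩ := h₁ ρ (le_of_max_le_left hρ) l a x hl ha
    obtain ⟨b₂, D₂, hb₂, hbb, g₂, s₂, t₂⟩ := h₂ ρ (le_of_max_le_right hρ) l b₁ (x r) hl hb₁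
    refine ⟨b₂, D₁.add D₂, hb₂, hbb.trans hba, g₁.add g₂ le_rfl hba, fun i hi => ?_,
      fun j hj S hS hF => ?_⟩
    · rw [Finset.sum_range_succ]; exact (s₁ i hi).add (s₂ i hi)
    · rcases Nat.lt_succ_iff_lt_or_eq.1 hj with hj | rfl
      · obtain ⟨y, l', p1, p2, p3, p4, p5⟩ := t₁ j hj S hS fun lam h1 h2 => by
          have := hF lam (hbb.trans h1) h2
          rwa [Dat.av_add, g₂.av_eq_zero h1, add_zero] at this
        exact ⟨y, l', p1, p2, p3, fun θ h1 h2 => by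
          rw [Dat.base_add]; linarith [p4 θ h1 h2, g₂.base θ], p5⟩
      · obtain ⟨y, l', p1, p2, p3, p4, p5⟩ := t₂ S hS fun lam h1 h2 => by
          have := hF lam h1 (h2.trans hba)
          have := g₁.wt lam (hb₂.le.trans h1)
          rw [Dat.av_add] at *
          omega
        exact ⟨y, l', p1, p2, p3, fun θ h1 h2 => by
          rw [Dat.base_add]; linarith [p4 θ h1 h2, g₁.base θ], p5⟩

theorem select (S : Multiset (ℚ × ℚ)) {x l ε l' lam : ℚ} {r : ℕ} (hε : 0 < ε) (hl' : l' ≤ ε)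
    (hr : 2 * r * ε ≤ l) (hS : ∀ I ∈ S, Meets I x l → I.2 - I.1 ≤ ε)
    (hc : cnt S (fun I => lam < I.2 - I.1) < r) :
    ∃ j < r, ∀ I ∈ S, Meets I (x + 2 * j * ε) l' → I.2 - I.1 ≤ lam := by
  by_contra hcon
  push Not at hcon
  have h1 := sum_le_cnt (Finset.range r) S (fun I => lam < I.2 - I.1)
    (fun j I => Meets I (x + 2 * j * ε) l' ∧ lam < I.2 - I.1) (fun _ _ _ _ h => h.2) (by
      have key : ∀ I ∈ S, ∀ i j : ℕ, j < r → Meets I (x + 2 * i * ε) l' →
          Meets I (x + 2 * j * ε) l' → ¬ i < j := by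
        intro I hI i j hj hi' hj' hij
        have e1 : (i : ℚ) + 1 ≤ j := by exact_mod_cast hij
        have e2 : (j : ℚ) + 1 ≤ r := by exact_mod_cast hj
        have e3 : (0 : ℚ) ≤ i := by positivity
        have := hS I hI ⟨by nlinarith [hi'.1], by nlinarith [hj'.2]⟩
        nlinarith [hi'.1, hj'.2]
      intro I hI i hi j hj hi' hj'
      have := key I hI i j (Finset.mem_range.1 hj) hi'.1 hj'.1
      have := key I hI j i (Finset.mem_range.1 hi) hj'.1 hi'.1
      omega)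
  have h2 : ∑ _j ∈ Finset.range r, 1 ≤ ∑ j ∈ Finset.range r,
      cnt S fun I => Meets I (x + 2 * j * ε) l' ∧ lam < I.2 - I.1 :=
    Finset.sum_le_sum fun j hj => cnt_pos.2 (hcon j (Finset.mem_range.1 hj))
  simp at h2
  omega

theorem spec_step {q L d d' : ℕ} {E : ℕ → ℚ → ℕ → Multiset ℚ} {E' : ℚ → ℕ → Multiset ℚ}
    (hE : ∀ j, Spec q L d (E j))
    (h : ∀ N : ℕ, ∃ r w : ℕ, N + w < 5 * r ∧ ∀ l ε l' x : ℚ, 0 < l' → l' ≤ ε → 2 * r * ε ≤ l →
      ∃ D₀ : Dat, Good q L l' w D₀ ∧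
        (∀ j < r, ∀ θ, x + 2 * j * ε ≤ θ → θ < x + 2 * j * ε + l' → (d' : ℤ) ≤ d + D₀.base θ) ∧
        ∀ D : Dat, ∀ i < q, Sol L D (∑ j ∈ Finset.range r, E j l' i) i →
          Sol L (D₀.add D) (E' l i) i) : Spec q L d' E' := by
  intro N
  obtain ⟨r, w, hrw, h⟩ := h N
  obtain ⟨R₁, M₁, h₁⟩ := row hE r (N + w)
  refine ⟨max R₁ (2 * r), w + M₁, fun ρ hρ l a x hl ha => ?_⟩
  push_cast at hρ
  have hr1 : (1 : ℚ) ≤ r := by exact_mod_cast (by omega : 1 ≤ r)
  have hρ2 : 2 * (r : ℚ) ≤ ρ := le_of_max_le_right hρ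
  have hρ0 : 0 < ρ := by linarith
  obtain ⟨ε, hε⟩ : ∃ ε, ε = l / ρ := ⟨_, rfl⟩
  have hε0 : 0 < ε := by rw [hε]; positivity
  have hεl : ε * ρ = l := by rw [hε]; field_simp
  obtain ⟨l', hl'⟩ : ∃ l', l' = min a ε := ⟨_, rfl⟩
  have hl0 : 0 < l' := by rw [hl']; exact lt_min ha hε0
  have hla : l' ≤ a := hl' ▸ min_le_left _ _
  have hlε : l' ≤ ε := hl' ▸ min_le_right _ _
  obtain ⟨a₀, ha₀⟩ : ∃ a₀, a₀ = l' / ρ := ⟨_, rfl⟩
  have ha0 : 0 < a₀ := by rw [ha₀]; positivity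
  have haρ : a₀ * ρ = l' := by rw [ha₀]; field_simp
  have hal : a₀ ≤ l' := by nlinarith
  have hrl : 2 * r * ε ≤ l := by nlinarith
  obtain ⟨D₀, g₀, p₀, s₀⟩ := h l ε l' x hl0 hlε hrl
  obtain ⟨b, D, hb, hba, g, s, t⟩ := h₁ ρ (le_of_max_le_left hρ) l' a₀ (fun j => x + 2 * j * ε)
    hl0 ha0
  refine ⟨b, D₀.add D, hb, hba.trans (hal.trans hla), g₀.add g hla (hal.trans hla),
    fun i hi => s₀ D i hi (s i hi), fun S hS hF => ?_⟩
  obtain ⟨j, hj, hjS⟩ := select S (lam := a₀) hε0 hlε hrl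
    (fun I hI hm => by have := hS I hI hm; rw [← hεl] at this; exact le_of_mul_le_mul_right this hρ0)
    (by
      have := hF a₀ hba (hal.trans hla)
      have := g₀.wt a₀ ha0.le
      rw [Dat.av_add, g.av_eq_zero le_rfl] at *
      omega)
  obtain ⟨y, l'', p1, p2, p3, p4, p5⟩ := t j hj S
    (fun I hI hm => by rw [← haρ]; exact mul_le_mul_of_nonneg_right (hjS I hI hm) hρ0.le)
    (fun lam h1 h2 => by
      have := hF lam h1 (h2.trans (hal.trans hla))
      have := g₀.wt lam (hb.le.trans h1)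
      rw [Dat.av_add] at *
      omega)
  have e2 : (j : ℚ) + 1 ≤ r := by exact_mod_cast hj
  have e3 : (0 : ℚ) ≤ j := by positivity
  refine ⟨y, l'', p1, by nlinarith, by nlinarith, fun θ h1 h2 => ?_, p5⟩
  rw [Dat.base_add]
  linarith [p4 θ h1 h2, p₀ j hj θ (p2.trans h1) (h2.trans_le p3)]

theorem range_rot {α : Type*} (f : ℕ → α) (r : ℕ) :
    (Multiset.range r).map (fun j => f (j + 1)) + {f 0} = (Multiset.range r).map f + {f r} := by
  induction r with
  | zero => simp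
  | succ r ih =>
    simp only [Multiset.range_succ, Multiset.map_cons, Multiset.cons_add, ih]
    simp only [← Multiset.singleton_add]; abel

/-- A group of token towers for the slot `s`. -/
theorem spec_group {q L d s : ℕ} (hL : 0 < L) (hs : s < q) (h : Spec q L d fun _ _ => 0) :
    Spec q L (d + 1) fun l i => {if s = i then 0 else l} := by
  refine spec_step (E := fun _ _ _ => 0) (fun _ => h) fun N =>
    ⟨L * (N + 1), 3 * L * (N + 1), by nlinarith, fun l ε l' x hl hlε hr => ?_⟩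
  obtain ⟨r, hrd⟩ : ∃ r, r = L * (N + 1) := ⟨_, rfl⟩
  rw [← hrd] at hr ⊢
  obtain ⟨D₀, hD⟩ : ∃ D₀ : Dat, D₀ = ⟨(Multiset.range r).map (fun j : ℕ => (some s, x + 2 * j * ε + l')) +
      {(none, x + 2 * r * ε)}, (Multiset.range r).map (fun j : ℕ => x + 2 * j * ε) +
      {x + 2 * r * ε}, 0, Multiset.replicate (N + 1) (s, l')⟩ := ⟨_, rfl⟩
  have hbase : ∀ θ, D₀.base θ = (cnt (Multiset.range r) fun j : ℕ => θ < x + 2 * j * ε + l' : ℕ) -
      (cnt (Multiset.range r) fun j : ℕ => θ < x + 2 * j * ε : ℕ) := fun θ => by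
    simp only [hD, Dat.base, cnt_add, cnt_map, cnt_singleton]; push_cast; ring
  have hW : D₀.W L = (Multiset.range r).map fun _ => (some s, l') := by
    simp only [hD, Dat.W, Multiset.map_replicate, Multiset.nsmul_replicate, hrd]
    simp
  refine ⟨D₀, ⟨by simp [hD], ?_, ?_, ?_⟩, ?_, ?_⟩
  · intro b hb
    rw [hD] at hb
    rw [Multiset.eq_of_mem_replicate hb]
    exact ⟨hs, hl, le_rfl⟩
  · intro lam _
    have := cnt_le_card D₀.Bn fun b => lam < b.2
    simp only [hD, Multiset.card_replicate, Dat.av, cnt_zero, mul_zero, zero_add] at this ⊢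
    exact Nat.mul_le_mul_left _ this
  · intro θ
    rw [hbase, sub_nonneg, Nat.cast_le]
    exact cnt_mono _ _ _ fun j _ h => by linarith
  · intro j hj θ h1 h2
    rw [hbase]
    have a1 := add_le_cnt (Multiset.range r) (fun j : ℕ => θ < x + 2 * j * ε + l')
      (fun j : ℕ => θ < x + 2 * j * ε) (fun i => i = j) (fun j _ h => by linarith)
      (fun i _ h => h ▸ h2) (fun i _ h h' => by subst h'; linarith)
    have a2 : 0 < cnt (Multiset.range r) fun i => i = j :=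
      cnt_pos.2 ⟨j, Multiset.mem_range.2 hj, rfl⟩
    push_cast; omega
  · intro D i _ hD'
    have : Sol L D₀ {if s = i then 0 else l} i := by
      by_cases hsi : s = i
      · refine ⟨(Multiset.range r).map (fun j : ℕ => (some s, x + 2 * j * ε + l', x + 2 * j * ε, l'))
          + {(none, x + 2 * r * ε, x + 2 * r * ε, 0)}, by simp [hD], by simp [hD],
          by simp [hW, hsi], fun g hg => ?_⟩
        simp only [Multiset.mem_add, Multiset.mem_map, Multiset.mem_singleton] at hg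
        rcases hg with ⟨j, _, rfl⟩ | rfl
        · exact Or.inr ⟨Or.inr (by simp [hsi]), by simp⟩
        · exact Or.inl le_rfl
      · refine ⟨(Multiset.range r).map
          (fun j : ℕ => (some s, x + 2 * j * ε + l', x + 2 * (j + 1 : ℕ) * ε, l'))
          + {(none, x + 2 * r * ε, x + 2 * (0 : ℕ) * ε, l)}, by simp [hD], ?_,
          by simp [hW, hsi], fun g hg => ?_⟩
        · have := range_rot (fun j : ℕ => x + 2 * j * ε) r
          simp only [hD, Multiset.map_add, Multiset.map_map, Function.comp_def,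
            Multiset.map_singleton]
          exact this
        · simp only [Multiset.mem_add, Multiset.mem_map, Multiset.mem_singleton] at hg
          rcases hg with ⟨j, _, rfl⟩ | rfl
          · refine Or.inl ?_
            push_cast; linarith
          · exact Or.inr ⟨Or.inl rfl, by push_cast; linarith⟩
    simpa using this.add hD'

theorem sum_range_mod {α : Type*} [AddCommMonoid α] (f : ℕ → α) (q n : ℕ) :
    ∑ j ∈ Finset.range (q * n), f (j % q) = n • ∑ j ∈ Finset.range q, f j := by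
  induction n with
  | zero => simp
  | succ n ih =>
    rw [Nat.mul_succ, Finset.sum_range_add, ih, succ_nsmul]
    congr 1
    exact Finset.sum_congr rfl fun j hj => by
      rw [Nat.mul_add_mod, Nat.mod_eq_of_lt (Finset.mem_range.1 hj)]

/-- A block of groups, cycling through the slots. -/
theorem spec_block {q L d : ℕ} (hq : 0 < q)
    (h : ∀ s < q, Spec q L d fun l i => {if s = i then 0 else l}) : Spec q L d fun _ _ => 0 := by
  refine spec_step (E := fun j l i => {if j % q = i then 0 else l})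
    (fun j => h _ (Nat.mod_lt _ hq)) fun N =>
    ⟨q * (N + 1), 5 * ((N + 1) * (q - 1)), ?_, fun l ε l' x hl hlε hr => ?_⟩
  · obtain ⟨q, rfl⟩ : ∃ k, q = k + 1 := ⟨q - 1, by omega⟩
    simp only [Nat.add_sub_cancel]; nlinarith
  refine ⟨⟨0, 0, (N + 1) • (Multiset.replicate (q - 1) l' + {0}), 0⟩, ⟨?_, by simp, ?_, ?_⟩, ?_, ?_⟩
  · intro t ht
    rcases Multiset.mem_add.1 (Multiset.mem_of_mem_nsmul ht) with ht | ht
    · rw [Multiset.eq_of_mem_replicate ht]; exact ⟨hl.le, le_rfl⟩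
    · rw [Multiset.mem_singleton.1 ht]; exact ⟨le_rfl, hl.le⟩
  · intro lam hlam
    simp only [Dat.av, cnt_nsmul, cnt_add, cnt_zero, cnt_singleton, not_lt.2 hlam, cnt_replicate,
      if_false]
    split_ifs <;> simp
  · intro θ; simp [Dat.base]
  · intro j _ θ _ _; simp [Dat.base]
  · rintro D i hi ⟨G, h1, h2, h3, h4⟩
    refine ⟨G, by simp [Dat.add, h1], by simp [Dat.add, h2], ?_, h4⟩
    rw [h3, sum_range_mod (fun j => ({if j = i then 0 else l'} : Multiset ℚ))]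
    have : ∑ j ∈ Finset.range q, ({if j = i then 0 else l'} : Multiset ℚ) =
        Multiset.replicate (q - 1) l' + {0} := by
      rw [← Finset.add_sum_erase _ _ (Finset.mem_range.2 hi), add_comm,
        Finset.sum_congr rfl (g := fun _ => {l'}) fun j hj => by
          rw [if_neg (Finset.ne_of_mem_erase hj)]]
      simp [Finset.card_erase_of_mem (Finset.mem_range.2 hi), Multiset.nsmul_singleton]
    rw [this]
    simp only [Dat.add, Dat.W, Multiset.map_add, zero_add, Multiset.map_zero, add_zero]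
    abel

theorem spec_all {q L : ℕ} (hq : 0 < q) (hL : 0 < L) (d : ℕ) : Spec q L d fun _ _ => 0 := by
  induction d with
  | zero => exact spec_zero q L
  | succ d ih => exact spec_block hq fun s hs => spec_group hL hs ih

theorem gadget {q L : ℕ} (hq : 0 < q) (hL : 0 < L) (h : ℕ) :
    ∃ D : Dat, (∀ t ∈ D.Lo, 0 ≤ t ∧ t ≤ 1) ∧ (∀ b ∈ D.Bn, b.1 < q ∧ 0 < b.2 ∧ b.2 ≤ 1) ∧
      (∀ i < q, Sol L D 0 i) ∧ ∀ S : Multiset (ℚ × ℚ),
        (∀ lam, 0 ≤ lam → 5 * cnt S (fun I => lam < I.2 - I.1) ≤ D.av L lam) →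
        ∃ θ, (h : ℤ) ≤ D.base θ ∧ ∀ I ∈ S, ¬ (I.1 ≤ θ ∧ θ < I.2) := by
  obtain ⟨R, M, H⟩ := spec_all hq hL h 0
  obtain ⟨ρ, hρ⟩ : ∃ ρ : ℚ, ρ = max (R : ℚ) (2 * (M + 1 : ℕ)) := ⟨_, rfl⟩
  have hρ2 : 2 * ((M + 1 : ℕ) : ℚ) ≤ ρ := hρ ▸ le_max_right _ _
  have hρ0 : 0 < ρ := lt_of_lt_of_le (by positivity) hρ2
  obtain ⟨b, D, hb, _, g, s, t⟩ := H ρ (hρ ▸ le_max_left _ _) ρ 1 0 hρ0 one_pos
  refine ⟨D, g.lo, g.bn, s, fun S hS => ?_⟩
  obtain ⟨y, l, p1, -, -, p4, p5⟩ := t S (fun I hI _ => by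
      have := hS 1 zero_le_one
      rw [g.av_eq_zero le_rfl] at this
      have := cnt_eq_zero.1 (show cnt S (fun I => 1 < I.2 - I.1) = 0 by omega) I hI
      nlinarith [not_lt.1 this])
    (fun lam h1 _ => by simpa using hS lam (hb.le.trans h1))
  obtain ⟨ε, hε⟩ : ∃ ε, ε = l / ρ := ⟨_, rfl⟩
  have hε0 : 0 < ε := by rw [hε]; positivity
  have hεl : ε * ρ = l := by rw [hε]; field_simp
  obtain ⟨j, hj, hjS⟩ := select S (x := y) (l := l) (lam := 0) (r := M + 1) hε0 le_rfl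
    (by nlinarith)
    (fun I hI hm => by have := p5 I hI hm; rw [← hεl] at this; exact le_of_mul_le_mul_right this hρ0)
    (by have := hS 0 le_rfl; have := g.wt 0 le_rfl; omega)
  have e2 : (j : ℚ) + 1 ≤ (M + 1 : ℕ) := by exact_mod_cast hj
  have e3 : (0 : ℚ) ≤ j := by positivity
  refine ⟨y + 2 * j * ε, p4 _ (by nlinarith) (by nlinarith), fun I hI h => ?_⟩
  have := hjS I hI ⟨by linarith [h.1], h.2⟩
  linarith [h.1, h.2]

end Crest.Agent.R318
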