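import Crest.Agent.R318.Addr
import Crest.Agent.R318.Tower
import Crest.Agent.R318.LP

/-! The single-cell instance: the integrality gap of the configuration programs. -/

set_option autoImplicit false
set_option maxHeartbeats 400000

namespace Crest.Agent.R318

open Crest.BinPacking

theorem cover {C K : Type} {T L : Multiset (Rec C K)} (hX : T.map Xd ≤ L.map Xd)
    (hY : T.map Yd ≤ L.map Yd) {z : C} {m : ℕ}
    (hm : cnt L (fun r => r.1 = z) ≤ cnt T (fun r => r.1 = z) + m) (θ : ℚ) :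
    cnt L (fun r => r.1 = z ∧ θ < r.2.2.1) ≤ cnt L (fun r => r.1 = z ∧ θ < r.2.2.2.1) +
      cnt T (fun r => r.1 = z ∧ r.2.2.2.1 ≤ θ ∧ θ < r.2.2.1) + m := by
  have h1 := cnt_le_of_defect hX (fun a => a.1 = z) (fun a => a.1 = z ∧ θ < a.2.2)
    (fun _ _ h => h.1) m (by rw [cnt_map, cnt_map]; exact hm)
  rw [cnt_map, cnt_map] at h1
  have h2 := cnt_le_of_map_le hY fun a => a.1 = z ∧ θ < a.2
  have h3 := cnt_le_add T (fun r => r.1 = z ∧ θ < r.2.2.1) (fun r => r.1 = z ∧ θ < r.2.2.2.1)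
    (fun r => r.1 = z ∧ r.2.2.2.1 ≤ θ ∧ θ < r.2.2.1) fun r _ h => by
      rcases lt_or_ge θ r.2.2.2.1 with h' | h'
      exacts [Or.inl ⟨h.1, h'⟩, Or.inr ⟨h.1, h', h.2⟩]
  simp only [Xd, Yd] at h1 h2
  omega

theorem exists_zip {α β : Type*} (A : Multiset α) (B : Multiset β) (h : A.card = B.card) :
    ∃ L : Multiset (α × β), L.map (fun p => p.1) = A ∧ L.map (fun p => p.2) = B := by
  induction A using Multiset.induction_on generalizing B with
  | empty => exact ⟨0, by simp, by simpa [eq_comm] using h.symm⟩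
  | cons a A ih =>
    obtain ⟨b, hb⟩ := Multiset.card_pos_iff_exists_mem.1 (show 0 < B.card by simp [← h])
    obtain ⟨B, rfl⟩ := Multiset.exists_cons_of_mem hb
    obtain ⟨L, h1, h2⟩ := ih B (by simpa using h)
    exact ⟨(a, b) ::ₘ L, by simp [h1], by simp [h2]⟩

theorem exists_bdd {C K : Type} (L : Multiset (Rec C K)) : ∃ U : ℕ, ∀ r ∈ L, Bdd U r := by
  induction L using Multiset.induction_on with
  | empty => exact ⟨0, by simp⟩
  | cons a L ih =>
    obtain ⟨U, hU⟩ := ih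
    obtain ⟨V, hV⟩ := exists_nat_ge (max |a.2.2.1| (max |a.2.2.2.1| |a.2.2.2.2|))
    simp only [max_le_iff] at hV
    have h1 : (U : ℚ) ≤ (U + V : ℕ) := by exact_mod_cast Nat.le_add_right _ _
    have h2 : (V : ℚ) ≤ (U + V : ℕ) := by exact_mod_cast Nat.le_add_left _ _
    refine ⟨U + V, fun r hr => ?_⟩
    rcases Multiset.mem_cons.1 hr with rfl | hr
    · exact ⟨hV.1.trans h2, hV.2.1.trans h2, hV.2.2.trans h2⟩
    · exact ⟨(hU r hr).1.trans h1, (hU r hr).2.1.trans h1, (hU r hr).2.2.trans h1⟩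

theorem map_add_map_congr {α β : Type*} (S : Multiset α) (f g f' g' : α → β)
    (h : ∀ a ∈ S, ({f a} + {g a} : Multiset β) = {f' a} + {g' a}) :
    S.map f + S.map g = S.map f' + S.map g' := by
  induction S using Multiset.induction_on with
  | empty => simp
  | cons a S ih =>
    have h1 := ih fun b hb => h b (Multiset.mem_cons_of_mem hb)
    have h2 := h a (Multiset.mem_cons_self _ _)
    simp only [Multiset.map_cons]
    simp only [← Multiset.singleton_add]
    calc _ = ({f a} + {g a}) + (S.map f + S.map g) := by abel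
      _ = _ := by rw [h1, h2]; abel

theorem cnt_big {C K : Type} {D U : ℕ} {ca : C → ℕ × ℕ} {ka : K → ℕ × ℕ} {L : Multiset (Rec C K)}
    (hb : ∀ r ∈ L, Bdd U r) : cnt (sizesM D U ca ka L) (fun a => 1 / 2 < a) = L.card := by
  simp only [sizesM, cnt_add, cnt_map]
  rw [cnt_eq_card, cnt_eq_zero.2, cnt_eq_zero.2]
  · simp
  · intro r hr; have := (sW_mem D U ka (a := Wd r) (hb r hr).2.2).2; linarith
  · intro r hr; have := (sY_mem D U ca (a := Yd r) (hb r hr).2.1).2; linarith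
  · intro r hr; have := (sX_mem D U ca ka (a := Xd r) (hb r hr).1).1; linarith

theorem sz3_inj {C K : Type} {D U : ℕ} {ca : C → ℕ × ℕ} {ka : K → ℕ × ℕ} {r : Rec C K}
    (hb : Bdd U r) (k k' : Fin 3) (h : sz3 D U ca ka k r = sz3 D U ca ka k' r) : k = k' := by
  have h1 := sX_mem D U ca ka (a := Xd r) hb.1
  have h2 := sY_mem D U ca (a := Yd r) hb.2.1
  have h3 := sW_mem D U ka (a := Wd r) hb.2.2
  fin_cases k <;> fin_cases k' <;> simp [sz3] at h ⊢ <;> linarith [h1.1, h1.2, h2.1, h2.2, h3.1, h3.2]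

/-- A record system that has a half-integral solution but no almost complete solution. -/
theorem exists_gap (m : ℕ) : ∃ L T : Multiset (Rec Unit Unit), T.map Xd = 2 • L.map Xd ∧
    T.map Yd = 2 • L.map Yd ∧ T.map Wd = 2 • L.map Wd ∧ (∀ r ∈ T, Fits r) ∧
    ∀ T' : Multiset (Rec Unit Unit), T'.map Xd ≤ L.map Xd → T'.map Yd ≤ L.map Yd →
      T'.map Wd ≤ L.map Wd → (∀ r ∈ T', Fits r) →
      ¬ cnt L (fun r => r.1 = ()) ≤ cnt T' (fun r => r.1 = ()) + m := by
  obtain ⟨D, hlo, hbn, hsol, hD⟩ := gadget (q := 2) (L := 2) two_pos two_pos (m + 1)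
  obtain ⟨G₀, a1, a2, a3, a4⟩ := hsol 0 (by omega)
  obtain ⟨G₁, b1, b2, b3, b4⟩ := hsol 1 (by omega)
  obtain ⟨P, p1, p2⟩ := exists_zip G₀ (D.Lo + (D.Bn.map (fun b => b.2) + D.Bn.map fun _ => 0)) (by
    have := congrArg Multiset.card a3
    simp [Dat.W] at this ⊢
    omega)
  obtain ⟨L, hL⟩ : ∃ L : Multiset (Rec Unit Unit),
    L = P.map fun p => ((), (), p.1.2.1, p.1.2.2.1, p.2) := ⟨_, rfl⟩
  have lX : L.map Xd = D.X.map fun p => ((), (), p.2) := by
    rw [← a1, ← p1, hL]; simp [Xd, Function.comp_def]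
  have lY : L.map Yd = D.Y.map fun w => ((), w) := by
    rw [← a2, ← p1, hL]; simp [Yd, Function.comp_def]
  have lW : L.map Wd = (D.Lo + (D.Bn.map (fun b : ℕ × ℚ => b.2) + D.Bn.map fun _ => 0)).map
      fun w => ((), w) := by
    rw [← p2, hL]; simp [Wd, Function.comp_def]
  let F : ℕ → GRec → Rec Unit Unit := fun i g =>
    ((), (), g.2.1, g.2.2.1, if g.1 = none ∨ g.1 = some i then g.2.2.2 else 0)
  have hW : ∀ i (G : Multiset GRec), G.map (fun g => (g.1, g.2.2.2)) =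
      D.W 2 + (0 : Multiset ℚ).map (fun t => (none, t)) →
      (G.map (F i)).map Wd = (D.Lo + 2 • D.Bn.map fun b => if b.1 = i then b.2 else 0).map
        fun w => ((), w) := fun i G hG => by
    have := congrArg (Multiset.map fun p : Option ℕ × ℚ =>
      ((), if p.1 = none ∨ p.1 = some i then p.2 else 0)) hG
    simpa [Dat.W, Multiset.map_nsmul, F, Wd, Function.comp_def] using this
  have hfit : ∀ i (G : Multiset GRec), G.map (fun g => (g.1, g.2.2.2)) =
      D.W 2 + (0 : Multiset ℚ).map (fun t => (none, t)) → (∀ g ∈ G, GOk i g) →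
      ∀ r ∈ G.map (F i), Fits r := fun i G hG hok r hr => by
    obtain ⟨g, hg, rfl⟩ := Multiset.mem_map.1 hr
    have ht : 0 ≤ g.2.2.2 := by
      have := Multiset.mem_map_of_mem (fun g : GRec => (g.1, g.2.2.2)) hg
      rw [hG] at this
      simp only [Dat.W, Multiset.map_zero, add_zero, Multiset.mem_add, Multiset.mem_map] at this
      rcases this with ⟨t, ht, e⟩ | h
      · rw [← (Prod.ext_iff.1 e).2]; exact (hlo t ht).1
      · obtain ⟨b, hb, e⟩ := Multiset.mem_map.1 (Multiset.mem_of_mem_nsmul h)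
        rw [← (Prod.ext_iff.1 e).2]; exact (hbn b hb).2.1.le
    simp only [Fits, F]
    rcases hok g hg with h | h
    · split_ifs <;> linarith
    · rw [if_pos h.1]; exact h.2
  refine ⟨L, G₀.map (F 0) + G₁.map (F 1), ?_, ?_, ?_, ?_, fun T' hX hY hW' hf hm => ?_⟩
  · rw [lX, two_nsmul]
    nth_rewrite 1 [← a1]
    rw [← b1]; simp [F, Xd, Function.comp_def]
  · rw [lY, two_nsmul]
    nth_rewrite 1 [← a2]
    rw [← b2]; simp [F, Yd, Function.comp_def]
  · rw [Multiset.map_add, hW 0 G₀ a3, hW 1 G₁ b3, lW,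
      ← map_add_map_congr D.Bn (fun b => if b.1 = 0 then b.2 else 0)
        (fun b => if b.1 = 1 then b.2 else 0) _ _ fun b hb => by
          have := (hbn b hb).1
          rcases (by omega : b.1 = 0 ∨ b.1 = 1) with h | h <;> simp [h, add_comm]]
    simp only [nsmul_add, Multiset.map_add, Multiset.map_nsmul]; abel
  · intro r hr
    rcases Multiset.mem_add.1 hr with hr | hr
    exacts [hfit 0 G₀ a3 a4 r hr, hfit 1 G₁ b3 b4 r hr]
  · obtain ⟨θ, h1, h2⟩ := hD (T'.map fun r => (r.2.2.2.1, r.2.2.1)) fun lam hl => by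
      rw [cnt_map]
      have c1 := cnt_mono T' (fun r => lam < r.2.2.1 - r.2.2.2.1) (fun r => lam < r.2.2.2.2)
        fun r hr h => h.trans_le (hf r hr)
      have c2 := cnt_le_of_le hW' fun a => lam < a.2
      rw [lW] at c2
      simp only [cnt_map, cnt_add, Wd] at c2
      rw [cnt_eq_zero.2 (fun _ _ => not_lt.2 hl : ∀ a ∈ D.Bn, ¬ lam < 0)] at c2
      simp only [Dat.av]
      omega
    have c1 := cover hX hY hm θ
    rw [cnt_eq_zero (T := T').2 fun r hr h => h2 _ (Multiset.mem_map_of_mem _ hr) h.2] at c1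
    have c2 := congrArg (fun S => cnt S fun a => a.1 = () ∧ θ < a.2.2) lX
    have c3 := congrArg (fun S => cnt S fun a => a.1 = () ∧ θ < a.2) lY
    simp only [cnt_map, Xd, Yd, true_and] at c1 c2 c3
    unfold Dat.base at h1
    omega

theorem gap_main (c : ℕ) :
    ∃ (m : ℕ) (σ : Fin m → ℚ) (mult : Fin m → ℕ) (B : ℕ),
      Function.Injective σ ∧ (∀ j, 0 < mult j) ∧ (∀ j, 1 / 6 < σ j ∧ σ j ≤ 1) ∧
      (∃ z, TypeLPFeasible σ mult z ∧ typeLPCost z = B) ∧
      (∀ z, TypeLPFeasible σ mult z → (B : ℝ) ≤ typeLPCost z) ∧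
      (∃ y : Finset ((j : Fin m) × Fin (mult j)) → ℝ,
        CopyLPFeasible (fun i => σ i.1) y ∧ copyLPCost y = B) ∧
      (∀ y : Finset ((j : Fin m) × Fin (mult j)) → ℝ,
        CopyLPFeasible (fun i => σ i.1) y → (B : ℝ) ≤ copyLPCost y) ∧
      ¬ PacksInto (fun i : (j : Fin m) × Fin (mult j) => σ i.1) (B + c) := by
  obtain ⟨L, T, hX, hY, hW, hfit, hno⟩ := exists_gap (amp 0 (amp 0 (8 * c)))
  obtain ⟨U, hU⟩ := exists_bdd (L + T)
  have hUL : ∀ r ∈ L, Bdd U r := fun r hr => hU r (Multiset.mem_add.2 (Or.inl hr))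
  have hUT : ∀ r ∈ T, Bdd U r := fun r hr => hU r (Multiset.mem_add.2 (Or.inr hr))
  obtain ⟨l, rfl⟩ : ∃ l : List (Rec Unit Unit), T = l := ⟨T.toList, by simp⟩
  have hc : 2 * L.card = l.length := by simpa using (congrArg Multiset.card hX).symm
  let ca : Unit → ℕ × ℕ := fun _ => (0, 0)
  refine lp_gap (sizesM 0 U ca ca L) L.card c (sizesM_mem 0 U ca ca hUL) (cnt_big hUL)
    (fun p => sz3 0 U ca ca p.2 (l.get (p.1.cast hc))) ?_ (fun r => ?_)
    (fun r k k' => sz3_inj (hUT _ (by simp)) k k') fun ι _ a ha hp => ?_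
  · have e : sizesM 0 U ca ca l = 2 • sizesM 0 U ca ca L := by
      rw [sizesM_congr 0 U ca ca (L := 2 • L) (by rw [hX, Multiset.map_nsmul])
        (by rw [hY, Multiset.map_nsmul]) (by rw [hW, Multiset.map_nsmul])]
      simp only [sizesM, Multiset.map_nsmul, nsmul_add]
    rw [← e, ← univ_map_sz3, ← fsum_singleton, ← fsum_singleton]
    exact Equiv.sum_comp ((finCongr hc).prodCongr (Equiv.refl (Fin 3)))
      fun p => ({sz3 0 U ca ca p.2 (l.get p.1)} : Multiset ℚ)
  · simp only [Fin.sum_univ_three]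
    exact fits_sum 0 U ca ca (hfit _ (by simp))
  · obtain ⟨T', h1, h2, h3, h4, h5⟩ := sub_of_pack 0 U ca ca (B := 0) ha hUL (by simp [ca])
      (by simp [ca]) (by simp) (by simp) hp
    exact hno T' h1 h2 h3 h4 (h5 ())

end Crest.Agent.R318
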