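import Crest.Agent.R318.Sound

/-! Laying out a CNF formula on a grid with short links. -/

set_option autoImplicit false
set_option maxHeartbeats 400000

namespace Crest.Agent.R318

/-- Clause positions. -/
def gCs (M nv : ℕ) : List Pos :=
  (List.range M).flatMap fun t =>
    ((List.range (5 * (nv + 1))).filter fun y => decide (2 ≤ y % 5)).map fun y => (t, y)

/-- Variable positions. -/
def gVs (M nv : ℕ) : List Pos :=
  (List.range (M + 1)).flatMap fun t =>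
    ((List.range (5 * (nv + 1))).filter fun y => decide (y % 5 < 2)).map fun y => (t, y)

theorem mem_gCs {M nv : ℕ} {c : Pos} : c ∈ gCs M nv ↔ c.1 < M ∧ c.2 < 5 * (nv + 1) ∧ 2 ≤ c.2 % 5 := by
  obtain ⟨t, y⟩ := c
  simp [gCs]

theorem mem_gVs {M nv : ℕ} {c : Pos} : c ∈ gVs M nv ↔ c.1 ≤ M ∧ c.2 < 5 * (nv + 1) ∧ c.2 % 5 < 2 := by
  obtain ⟨t, y⟩ := c
  simp [gVs]

/-- The literal in slot `s` of the clause at position `c`. -/
def gLit (φ : List (List (ℕ × Bool))) (nv : ℕ) (c : Pos) (s : ℕ) : Option (Pos × Bool) :=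
  if c.2 % 5 = 2 ∧ s = 0 then some ((c.1, c.2 - 2), false)
  else if c.2 % 5 = 2 ∧ s = 1 then some ((c.1 + 1, c.2 - 2), true)
  else if c.2 % 5 = 3 ∧ s = 2 then some ((c.1, c.2 - 3), true)
  else if c.2 % 5 = 3 ∧ s = 3 then some ((c.1 + 1, c.2 - 3), false)
  else if c.2 % 5 = 4 ∧ s = 0 ∧ c.2 / 5 < nv then some ((c.1, c.2 - 3), false)
  else if c.2 % 5 = 4 ∧ s = 1 ∧ 0 < c.2 / 5 then some ((c.1, c.2 - 8), true)
  else if c.2 % 5 = 4 ∧ s = 4 ∧ (c.2 / 5, true) ∈ φ.getD c.1 [] then some ((c.1, c.2 - 4), true)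
  else if c.2 % 5 = 4 ∧ s = 5 ∧ (c.2 / 5, false) ∈ φ.getD c.1 [] then some ((c.1, c.2 - 4), false)
  else none

theorem gLit_eq {φ : List (List (ℕ × Bool))} {nv : ℕ} {c : Pos} {s : ℕ} {p : Pos} {b : Bool} :
    gLit φ nv c s = some (p, b) ↔
      (c.2 % 5 = 2 ∧ s = 0 ∧ p = (c.1, c.2 - 2) ∧ b = false) ∨
      (c.2 % 5 = 2 ∧ s = 1 ∧ p = (c.1 + 1, c.2 - 2) ∧ b = true) ∨
      (c.2 % 5 = 3 ∧ s = 2 ∧ p = (c.1, c.2 - 3) ∧ b = true) ∨
      (c.2 % 5 = 3 ∧ s = 3 ∧ p = (c.1 + 1, c.2 - 3) ∧ b = false) ∨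
      (c.2 % 5 = 4 ∧ s = 0 ∧ c.2 / 5 < nv ∧ p = (c.1, c.2 - 3) ∧ b = false) ∨
      (c.2 % 5 = 4 ∧ s = 1 ∧ 0 < c.2 / 5 ∧ p = (c.1, c.2 - 8) ∧ b = true) ∨
      (c.2 % 5 = 4 ∧ s = 4 ∧ (c.2 / 5, true) ∈ φ.getD c.1 [] ∧ p = (c.1, c.2 - 4) ∧ b = true) ∨
      (c.2 % 5 = 4 ∧ s = 5 ∧ (c.2 / 5, false) ∈ φ.getD c.1 [] ∧ p = (c.1, c.2 - 4) ∧
        b = false) := by
  unfold gLit
  generalize φ.getD c.1 [] = C
  constructor
  · intro h
    split_ifs at h with h1 h2 h3 h4 h5 h6 h7 h8 <;>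
      obtain ⟨rfl, rfl⟩ := Prod.mk.inj (Option.some.inj h) <;> simp [*]
  · rintro (⟨h, rfl, rfl, rfl⟩ | ⟨h, rfl, rfl, rfl⟩ | ⟨h, rfl, rfl, rfl⟩ | ⟨h, rfl, rfl, rfl⟩ |
      ⟨h, rfl, h', rfl, rfl⟩ | ⟨h, rfl, h', rfl, rfl⟩ | ⟨h, rfl, h', rfl, rfl⟩ |
      ⟨h, rfl, h', rfl, rfl⟩) <;> simp only [*] <;> simp

theorem gLit_near {φ : List (List (ℕ × Bool))} {nv : ℕ} {c : Pos} {s : ℕ} {p : Pos} {b : Bool}
    (h : gLit φ nv c s = some (p, b)) :
    c.1 ≤ p.1 ∧ p.1 ≤ c.1 + 1 ∧ p.2 ≤ c.2 ∧ c.2 ≤ p.2 + 8 ∧ p.2 % 5 < 2 := by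
  rw [gLit_eq] at h
  simp only [Prod.ext_iff] at h
  omega

theorem gLit_inj {φ : List (List (ℕ × Bool))} {nv : ℕ} {c c' : Pos} {s : ℕ} {p : Pos} {b : Bool}
    (h : gLit φ nv c s = some (p, b)) (h' : gLit φ nv c' s = some (p, b)) : c = c' := by
  rw [gLit_eq] at h h'
  simp only [Prod.ext_iff] at h h' ⊢
  rcases h with h | h | h | h | h | h | h | h <;>
    rcases h' with h' | h' | h' | h' | h' | h' | h' | h' <;> omega

/-- The clause containing the literal `(p, b)` in slot `s`. -/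
def gOcc (φ : List (List (ℕ × Bool))) (nv : ℕ) (p : Pos) (s : ℕ) (b : Bool) : Option Pos :=
  (gCs φ.length nv).find? fun c => decide (gLit φ nv c s = some (p, b))

theorem gSys (φ : List (List (ℕ × Bool))) (nv : ℕ) :
    Sys (gCs φ.length nv).toFinset (gVs φ.length nv).toFinset (gLit φ nv) (gOcc φ nv) where
  disj c hc hv := by
    rw [List.mem_toFinset, mem_gCs] at hc
    rw [List.mem_toFinset, mem_gVs] at hv
    omega
  lit_mem c hc s p b h := by
    rw [List.mem_toFinset, mem_gCs] at hc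
    rw [List.mem_toFinset, mem_gVs]
    have := gLit_near h
    omega
  occ_iff p s b c := by
    rw [List.mem_toFinset]
    constructor
    · intro h
      exact ⟨List.mem_of_find?_eq_some h, by simpa using List.find?_some h⟩
    · rintro ⟨hc, h⟩
      rcases e : gOcc φ nv p s b with _ | c'
      · simpa [h] using List.find?_eq_none.1 e c hc
      · rw [gLit_inj (c := c') (by simpa using List.find?_some e) h]

theorem grid_complete {φ : List (List (ℕ × Bool))} {nv : ℕ} (hφ : ∀ C ∈ φ, ∀ l ∈ C, l.1 < nv)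
    {σ : ℕ → Bool} (hσ : ∀ C ∈ φ, ∃ l ∈ C, σ l.1 = l.2) :
    ∃ τ : Pos → Bool, ∀ c ∈ (gCs φ.length nv).toFinset, ∃ i < 6, ∃ p b,
      gLit φ nv c i = some (p, b) ∧ τ p = b := by
  classical
  refine ⟨fun p => if p.2 % 5 = 0 then σ (p.2 / 5) else
    decide (∃ l ∈ φ.getD p.1 [], l.1 ≤ p.2 / 5 ∧ σ l.1 = l.2), fun ⟨t, y⟩ hc => ?_⟩
  rw [List.mem_toFinset, mem_gCs] at hc
  simp only at hc
  obtain ⟨x, κ, hκ, rfl⟩ : ∃ x κ, κ < 5 ∧ y = 5 * x + κ :=
    ⟨y / 5, y % 5, Nat.mod_lt _ (by omega), by omega⟩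
  have e0 : (5 * x) / 5 = x := by omega
  have hmem : φ.getD t [] ∈ φ := by
    rw [List.getD_eq_getElem _ _ hc.1]; exact List.getElem_mem _
  rcases (by omega : κ = 2 ∨ κ = 3 ∨ κ = 4) with rfl | rfl | rfl
  · cases e : σ x
    · exact ⟨0, by omega, (t, 5 * x), false, gLit_eq.2 (by simp), by simp [e]⟩
    · exact ⟨1, by omega, (t + 1, 5 * x), true, gLit_eq.2 (by simp), by simp [e]⟩
  · cases e : σ x
    · exact ⟨3, by omega, (t + 1, 5 * x), false, gLit_eq.2 (by simp), by simp [e]⟩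
    · exact ⟨2, by omega, (t, 5 * x), true, gLit_eq.2 (by simp), by simp [e]⟩
  · have e1 : (5 * x + 4) / 5 = x := by omega
    by_cases h : ∃ l ∈ φ.getD t [], l.1 ≤ x ∧ σ l.1 = l.2
    · obtain ⟨⟨v, b⟩, hl, h1, h2⟩ := h
      simp only at h1 h2
      rcases h1.eq_or_lt with rfl | h1
      · cases b
        · exact ⟨5, by omega, (t, 5 * v), false, gLit_eq.2 (by simpa [e1] using hl), by simp [h2]⟩
        · exact ⟨4, by omega, (t, 5 * v), true, gLit_eq.2 (by simpa [e1] using hl), by simp [h2]⟩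
      · refine ⟨1, by omega, (t, 5 * (x - 1) + 1), true, gLit_eq.2 (by simp [e1]; omega), ?_⟩
        have e2 : (5 * (x - 1) + 1) / 5 = x - 1 := by omega
        simp only [e2]
        rw [if_neg (by omega), decide_eq_true_iff]
        exact ⟨_, hl, by simp only; omega, h2⟩
    · have hx : x < nv := by
        by_contra hx
        obtain ⟨l, hl, h2⟩ := hσ _ hmem
        exact h ⟨l, hl, by have := hφ _ hmem l hl; omega, h2⟩
      refine ⟨0, by omega, (t, 5 * x + 1), false, gLit_eq.2 (by simp [e1, hx]), ?_⟩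
      have e2 : (5 * x + 1) / 5 = x := by omega
      simp only [e2]
      rw [if_neg (by omega), decide_eq_false_iff_not]
      exact h

theorem grid_sound {φ : List (List (ℕ × Bool))} {nv : ℕ} {τ : Pos → Bool}
    (h : ∀ c ∈ (gCs φ.length nv).toFinset, ∃ i p b, gLit φ nv c i = some (p, b) ∧ τ p = b) :
    ∃ σ : ℕ → Bool, ∀ C ∈ φ, ∃ l ∈ C, σ l.1 = l.2 := by
  have h1 : ∀ x ≤ nv, ∀ t ≤ φ.length, τ (t, 5 * x) = τ (0, 5 * x) := by
    intro x hx t
    induction t with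
    | zero => intro _; rfl
    | succ t ih =>
      intro ht
      rw [← ih (by omega)]
      obtain ⟨i, p, b, e1, e2⟩ := h (t, 5 * x + 2) (by
        rw [List.mem_toFinset, mem_gCs]; simp only; omega)
      obtain ⟨i', p', b', e1', e2'⟩ := h (t, 5 * x + 3) (by
        rw [List.mem_toFinset, mem_gCs]; simp only; omega)
      rw [gLit_eq] at e1 e1'
      simp at e1 e1'
      rcases e1 with ⟨-, rfl, rfl⟩ | ⟨-, rfl, rfl⟩ <;>
        rcases e1' with ⟨-, rfl, rfl⟩ | ⟨-, rfl, rfl⟩ <;> simp_all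
  refine ⟨fun x => τ (0, 5 * x), fun C hC => ?_⟩
  obtain ⟨t, ht, rfl⟩ := List.getElem_of_mem hC
  have h2 : ∀ x ≤ nv, (x < nv → τ (t, 5 * x + 1) = true) →
      ∃ l ∈ φ[t], τ (0, 5 * l.1) = l.2 := by
    intro x
    induction x using Nat.strong_induction_on with
    | _ x ih =>
      intro hx hs
      obtain ⟨i, p, b, e1, e2⟩ := h (t, 5 * x + 4) (by
        rw [List.mem_toFinset, mem_gCs]; simp only; omega)
      have e0 : (5 * x + 4) / 5 = x := by omega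
      have e3 : (5 * x + 4) % 5 = 4 := by omega
      rw [gLit_eq] at e1
      simp only [e0, e3, List.getD_eq_getElem _ _ ht] at e1
      rcases e1 with e | e | e | e | ⟨-, -, a, rfl, rfl⟩ | ⟨-, -, a, rfl, rfl⟩ |
        ⟨-, -, a, rfl, rfl⟩ | ⟨-, -, a, rfl, rfl⟩
      any_goals omega
      · have := hs a
        simp_all
      · exact ih (x - 1) (by omega) (by omega) fun _ => by
          rwa [show 5 * (x - 1) + 1 = 5 * x + 4 - 8 by omega]
      · exact ⟨_, a, by rw [← h1 x hx t ht.le]; exact e2⟩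
      · exact ⟨_, a, by rw [← h1 x hx t ht.le]; exact e2⟩
  exact h2 nv le_rfl fun h => absurd h (lt_irrefl _)

end Crest.Agent.R318
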