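import Crest.Agent.R318.Grid
import Crest.Agent.Lib.CookLevin.Main
import Crest.Prelude.Def_BitEnc

/-! The polynomial-time reduction from satisfiability to bin packing with an additive gap. -/

set_option autoImplicit false
set_option maxHeartbeats 400000

namespace Crest.Agent.R318

open Crest.BinPacking Crest.Agent.Lib.PT

/-- The record list of a formula. -/
def recs (L : ℕ) (G : List GRec) (bl : List (ℕ × ℚ)) (φ : List (List (ℕ × Bool))) (nv : ℕ) :
    List (Rec Pos Kd) :=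
  ((gCs φ.length nv).dedup.flatMap fun c => G.map (clRec (fun s => (gLit φ nv c s).isSome) c)) ++
  ((gVs φ.length nv).dedup.flatMap fun p => (List.range L).flatMap fun _ =>
    [true, false].flatMap fun b => (List.range (bl.length + 1)).map
      (vaRec bl.length (fun j => bl.getD j (0, 0)) (gOcc φ nv p) p b))

theorem coe_dedup_flatMap {α β : Type*} [DecidableEq α] (l : List α) (f : α → List β) :
    ((l.dedup.flatMap f : List β) : Multiset β) = ∑ a ∈ l.toFinset, (f a : Multiset β) := by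
  rw [← Multiset.coe_bind]; rfl

theorem coe_range_flatMap {β : Type*} (L : ℕ) (l : List β) :
    (((List.range L).flatMap fun _ => l : List β) : Multiset β) = L • (l : Multiset β) := by
  induction L with
  | zero => simp
  | succ L ih => rw [List.range_succ, List.flatMap_append, ← Multiset.coe_add, ih, succ_nsmul]; simp

theorem coe_recs (L : ℕ) (G : List GRec) (bl : List (ℕ × ℚ)) (φ : List (List (ℕ × Bool)))
    (nv : ℕ) : (recs L G bl φ nv : Multiset (Rec Pos Kd)) =
      allRecs L G bl.length (fun j => bl.getD j (0, 0)) (gCs φ.length nv).toFinset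
        (gVs φ.length nv).toFinset (gLit φ nv) (gOcc φ nv) := by
  rw [recs, ← Multiset.coe_add, coe_dedup_flatMap, coe_dedup_flatMap, allRecs]
  congr 1
  refine Finset.sum_congr rfl fun p _ => ?_
  rw [coe_range_flatMap, vaCell, Fintype.sum_bool]
  simp only [List.flatMap_cons, List.flatMap_nil, List.append_nil, ← Multiset.coe_add]
  rfl

/-- Address of a cell. -/
def cAdr (p : Pos) : ℕ × ℕ := (p.1, 7 * p.2 + 62)

/-- Address of a kind. -/
def kAdr (k : Kd) : ℕ × ℕ := (k.1.1, 7 * k.1.2 + k.2.elim 0 fun s => s + 1)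

theorem exists_gad (L h : ℕ) (hL : 0 < L) : ∃ (D : Dat) (G : List GRec) (bl : List (ℕ × ℚ)),
    Gad 6 L h D G bl.length fun j => bl.getD j (0, 0) := by
  obtain ⟨D, h1, h2, h3, h4⟩ := gadget (q := 6) (by omega) hL h
  obtain ⟨G, g1, g2, g3, -⟩ := h3 0 (by omega)
  have e : D.Bn = (Multiset.range D.Bn.toList.length).map fun j => D.Bn.toList.getD j (0, 0) := by
    conv_lhs => rw [← Multiset.coe_toList D.Bn]
    generalize D.Bn.toList = l
    rw [← Multiset.coe_range, Multiset.map_coe]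
    congr 1
    refine List.ext_getElem (by simp) fun i h1 h2 => ?_
    simp [h1]
  refine ⟨D, G.toList, D.Bn.toList, h1, fun j hj => h2 _ ?_, e, by simpa using g1,
    by simpa using g2, by simpa using g3, h3, h4⟩
  rw [List.getD_eq_getElem _ _ hj, ← Multiset.mem_toList]
  exact List.getElem_mem _

section
variable {L h : ℕ} {D : Dat} {G : List GRec} {bl : List (ℕ × ℚ)}

theorem recs_adr (hg : Gad 6 L h D G bl.length fun j => bl.getD j (0, 0))
    {φ : List (List (ℕ × Bool))} {nv : ℕ} {r : Rec Pos Kd}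
    (hr : r ∈ (recs L G bl φ nv : Multiset (Rec Pos Kd))) :
    r.1.1 ≤ φ.length ∧ r.1.2 < 5 * (nv + 1) ∧ r.2.1.1.1 ≤ r.1.1 ∧ r.1.1 ≤ r.2.1.1.1 + 1 ∧
      r.1.2 ≤ r.2.1.1.2 ∧ r.2.1.1.2 ≤ r.1.2 + 8 ∧ (r.2.1.2.elim 0 fun s => s + 1) ≤ 6 := by
  rw [coe_recs] at hr
  rcases mem_allRecs hr with ⟨c, hc, h⟩ | ⟨p, hp, h⟩
  · rw [List.mem_toFinset, mem_gCs] at hc
    obtain ⟨⟨k, u, w, t⟩, hg', rfl⟩ := Multiset.mem_map.1 h
    have := (W_nonneg hg hg.gW hg').2.2
    simp only [clRec]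
    rcases k with _ | s
    · simp only [Option.elim]; omega
    · have := this s rfl
      simp only [Option.elim]; omega
  · rw [List.mem_toFinset, mem_gVs] at hp
    obtain ⟨b, j, -, rfl⟩ := mem_vaCell h
    simp only [vaRec]
    rcases e : toc bl.length (fun j => bl.getD j (0, 0)) (gOcc φ nv p) b j with _ | c
    · simp only [tkd, Option.elim]; omega
    · unfold toc at e
      split_ifs at e with hj
      have := gLit_near (((gSys φ nv).occ_iff _ _ _ _).1 e).2
      have := (hg.bn j hj).1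
      simp only [tkd, Option.elim]; omega

theorem recs_bdd (hg : Gad 6 L h D G bl.length fun j => bl.getD j (0, 0)) :
    ∃ U : ℕ, ∀ φ nv, ∀ r ∈ (recs L G bl φ nv : Multiset (Rec Pos Kd)), Bdd U r := by
  obtain ⟨U, hU⟩ := exists_bdd ((G : Multiset GRec).map fun g => (((), (), g.2) : Rec Unit Unit))
  refine ⟨U + 6 * bl.length + 2, fun φ nv r hr => ?_⟩
  rw [coe_recs] at hr
  have hn : (0 : ℚ) ≤ bl.length := by positivity
  have hU0 : (0 : ℚ) ≤ U := by positivity
  unfold Bdd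
  push_cast
  rcases mem_allRecs hr with ⟨c, hc, h⟩ | ⟨p, hp, h⟩
  · obtain ⟨⟨k, u, w, t⟩, hg', rfl⟩ := Multiset.mem_map.1 h
    obtain ⟨h1, h2, h3⟩ := hU _ (Multiset.mem_map_of_mem _ hg')
    simp only [clRec] at *
    refine ⟨by linarith, by linarith, ?_⟩
    rcases k with _ | s
    · simp only [Option.elim]; linarith
    · simp only [Option.elim]; split_ifs
      · linarith
      · rw [abs_zero]; linarith
  · obtain ⟨b, j, hj, rfl⟩ := mem_vaCell h
    have h1 := tex_bound hg (gOcc φ nv p) b j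
    have h2 : tpos bl.length b j ≤ 6 * bl.length + 1 := by unfold tpos; split_ifs <;> omega
    have h3 : (tpos bl.length b j : ℚ) ≤ 6 * bl.length + 1 := by exact_mod_cast h2
    have h4 : (0 : ℚ) ≤ tpos bl.length b j := by positivity
    simp only [vaRec]
    refine ⟨abs_le.2 ⟨by linarith [h1.1], by linarith [h1.2]⟩, abs_le.2 ⟨by linarith, by linarith⟩,
      ?_⟩
    split_ifs
    · exact abs_le.2 ⟨by linarith, by linarith⟩
    · rw [abs_zero]; linarith

end

theorem reduction (c : ℕ) : ∃ (L : ℕ) (G : List GRec) (bl : List (ℕ × ℚ)) (U : ℕ),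
    ∀ (φ : List (List (ℕ × Bool))) (nv : ℕ), (∀ C ∈ φ, ∀ l ∈ C, l.1 < nv) →
      ∀ S, S = sizes (φ.length + 35 * nv + 100) U cAdr kAdr (recs L G bl φ nv) →
      (∀ a ∈ S, 1 / 6 < a ∧ a ≤ 1) ∧
      ((∃ σ : ℕ → Bool, ∀ C ∈ φ, ∃ l ∈ C, σ l.1 = l.2) →
        PacksInto (fun i : Fin S.length => S.get i) (recs L G bl φ nv).length) ∧
      (PacksInto (fun i : Fin S.length => S.get i) ((recs L G bl φ nv).length + c) →
        ∃ σ : ℕ → Bool, ∀ C ∈ φ, ∃ l ∈ C, σ l.1 = l.2) := by
  obtain ⟨m, hm⟩ : ∃ m, m = amp 62 (amp 62 (8 * c)) := ⟨_, rfl⟩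
  obtain ⟨D, G, bl, hg⟩ := exists_gad (10 * m + 1) (m + 1) (by omega)
  obtain ⟨U, hU⟩ := recs_bdd hg
  refine ⟨10 * m + 1, G, bl, U, fun φ nv hφ S hS => ?_⟩
  have e : Finset.univ.val.map (fun i : Fin S.length => S.get i) =
      sizesM (φ.length + 35 * nv + 100) U cAdr kAdr (recs (10 * m + 1) G bl φ nv) := by
    rw [univ_map_get, hS, coe_sizes]
  refine ⟨fun a ha => sizesM_mem (φ.length + 35 * nv + 100) U cAdr kAdr (hU φ nv) a ?_,
    fun ⟨σ, hσ⟩ => ?_, fun hp => ?_⟩
  · rw [← coe_sizes, ← hS]; exact ha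
  · obtain ⟨τ, hτ⟩ := grid_complete hφ hσ
    obtain ⟨T, h1, h2, h3, h4⟩ := complete hg (gSys φ nv) τ hτ
    rw [← coe_recs] at h1 h2 h3
    exact pack_of_same _ U cAdr kAdr e h1 h2 h3 h4
  · obtain ⟨T, h1, h2, h3, h4, h5⟩ := sub_of_pack _ U cAdr kAdr (B := 62) e (hU φ nv)
      (fun r hr => by have := recs_adr hg hr; simp only [cAdr]; omega)
      (fun r hr => by have := recs_adr hg hr; simp only [cAdr, kAdr]; omega)
      (fun r _ r' _ h => by
        simp only [cAdr, Prod.mk.injEq] at h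
        exact Prod.ext h.1 (by omega))
      (fun r hr r' hr' h => by
        have a1 := (recs_adr hg hr).2.2.2.2.2.2
        have a2 := (recs_adr hg hr').2.2.2.2.2.2
        simp only [kAdr, Prod.mk.injEq] at h
        refine Prod.ext (Prod.ext h.1 (by omega)) ?_
        have a3 : (r.2.1.2.elim 0 fun s => s + 1) = r'.2.1.2.elim 0 fun s => s + 1 := by omega
        revert a3
        rcases r.2.1.2 with _ | s <;> rcases r'.2.1.2 with _ | s' <;> simp) hp
    rw [← hm, coe_recs] at h5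
    rw [coe_recs] at h1 h2 h3
    obtain ⟨τ, hτ⟩ := sound hg (gSys φ nv) ⟨h1, h2, h3, h4, h5⟩ (by omega)
    exact grid_sound hτ

section pt
variable {α : Type} [Enc α]

@[fun_prop] theorem gCs_pt {M nv : α → ℕ} (hM : PT M) (hM' : PB M) (hn : PT nv) (hn' : PB nv) :
    PT fun a => gCs (M a) (nv a) := by
  unfold gCs; fun_prop

@[fun_prop] theorem gVs_pt {M nv : α → ℕ} (hM : PT M) (hM' : PB M) (hn : PT nv) (hn' : PB nv) :
    PT fun a => gVs (M a) (nv a) := by
  unfold gVs; fun_prop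

@[fun_prop] theorem gLit_pt {φ : α → List (List (ℕ × Bool))} {nv : α → ℕ} {c : α → Pos}
    {s : α → ℕ} (hφ : PT φ) (hn : PT nv) (hc : PT c) (hs : PT s) :
    PT fun a => gLit (φ a) (nv a) (c a) (s a) := by
  unfold gLit; fun_prop

@[fun_prop] theorem gOcc_pt {φ : α → List (List (ℕ × Bool))} {nv : α → ℕ} {p : α → Pos}
    {s : α → ℕ} {b : α → Bool} (hφ : PT φ) (hn : PT nv) (hn' : PB nv) (hp : PT p) (hs : PT s)
    (hb : PT b) : PT fun a => gOcc (φ a) (nv a) (p a) (s a) (b a) := by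
  unfold gOcc; fun_prop

@[fun_prop] theorem recs_pt (L : ℕ) (G : List GRec) (bl : List (ℕ × ℚ))
    {φ : α → List (List (ℕ × Bool))} {nv : α → ℕ} (hφ : PT φ) (hn : PT nv) (hn' : PB nv) :
    PT fun a => recs L G bl (φ a) (nv a) := by
  unfold recs clRec vaRec tkd tex toc tpos; fun_prop

@[fun_prop] theorem adr_pt (U : ℕ) {D : α → ℕ} {p : α → ℕ × ℕ} (hD : PT D) (hD' : PB D)
    (hp : PT p) : PT fun a => adr (D a) U (p a) := by
  have h1 : PB fun a => min (p a).1 (D a) := PB.min_right _ hD'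
  have h2 : PB fun a => min (p a).2 (D a) := PB.min_right _ hD'
  unfold adr M1; fun_prop

@[fun_prop] theorem Zc_pt (U : ℕ) {D : α → ℕ} (hD : PT D) (hD' : PB D) :
    PT fun a => Zc (D a) U := by
  unfold Zc M1; fun_prop

@[fun_prop] theorem sizes_pt (U : ℕ) {D : α → ℕ} {l : α → List (Rec Pos Kd)} (hD : PT D)
    (hD' : PB D) (hl : PT l) : PT fun a => sizes (D a) U cAdr kAdr (l a) := by
  unfold sizes sX sY sW Xd Yd Wd cAdr kAdr; fun_prop

end pt

open Crest.Enc in
theorem hard_main (c : ℕ) (A : Set (List Bool)) (hA : Crest.Complexity.InNP A) :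
    ∃ f : List Bool → List Bool, Crest.Complexity.PolyTime f ∧
      ∀ x : List Bool, ∃ (sizes : List ℚ) (B : ℕ),
        f x = natCode sizes.length ++ (sizes.map ratCode).flatten ++ natCode B ∧
        (∀ a ∈ sizes, 1 / 6 < a ∧ a ≤ 1) ∧
        (x ∈ A → PacksInto (fun i : Fin sizes.length => sizes.get i) B) ∧
        (x ∉ A → ¬ PacksInto (fun i : Fin sizes.length => sizes.get i) (B + c)) := by
  obtain ⟨φ, n, h1, h2, h3, h4, h5⟩ := Crest.Agent.Lib.CookLevin.cook_levin A hA
  obtain ⟨L, G, bl, U, H⟩ := reduction c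
  have hS : PT fun x => sizes ((φ x).length + 35 * n x + 100) U cAdr kAdr
      (recs L G bl (φ x) (n x)) := by fun_prop
  have hB : PT fun x => (recs L G bl (φ x) (n x)).length := by fun_prop
  refine ⟨fun x => _, PT.polyTime ?_, fun x => ⟨_, (recs L G bl (φ x) (n x)).length, rfl,
    (H (φ x) (n x) (h4 x) _ rfl).1, fun hx => (H (φ x) (n x) (h4 x) _ rfl).2.1 ((h5 x).1 hx),
    fun hx hp => hx ((h5 x).2 ((H (φ x) (n x) (h4 x) _ rfl).2.2 hp))⟩⟩
  fun_prop

end Crest.Agent.R318
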