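import Crest.Agent.R318.Basic

/-! The level lemma: convex addresses force almost all triples to match locally. -/

set_option autoImplicit false

namespace Crest.Agent.R318

theorem pow3_le_left {a b x ξ : ℕ} (hξ : ξ ≤ x) (h : 3 ^ a + 3 ^ b ≤ 3 ^ x + 3 ^ ξ) : a ≤ x := by
  by_contra hc
  have h1 : 3 ^ (x + 1) ≤ 3 ^ a := Nat.pow_le_pow_right (by norm_num) (by omega)
  have h2 : 3 ^ ξ ≤ 3 ^ x := Nat.pow_le_pow_right (by norm_num) hξ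
  have h3 : 0 < 3 ^ b := by positivity
  have h4 : 0 < 3 ^ x := by positivity
  rw [pow_succ] at h1
  omega

theorem pow3_le_of_eq {b x ξ : ℕ} (h : 3 ^ x + 3 ^ b ≤ 3 ^ x + 3 ^ ξ) : b ≤ ξ := by
  have : 3 ^ b ≤ 3 ^ ξ := by omega
  exact (Nat.pow_le_pow_iff_right (by norm_num)).1 this

/-- Error amplification of one level. -/
def amp (B e : ℕ) : ℕ := 4 * (B + 1) ^ 4 * e

theorem level {δ : Type*} (B e : ℕ) (L : Multiset δ) (T : Multiset (δ × δ × δ))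
    (Cc Kc x ξ : δ → ℕ)
    (h1 : T.map (fun τ => τ.1) ≤ L) (h2 : T.map (fun τ => τ.2.1) ≤ L)
    (h3 : T.map (fun τ => τ.2.2) ≤ L)
    (hL : ∀ r ∈ L, Kc r ≤ Cc r ∧ Cc r ≤ Kc r + B ∧ ξ r ≤ x r ∧ x r ≤ ξ r + B)
    (hT : ∀ τ ∈ T, Cc τ.2.1 = Cc τ.1 ∧ Kc τ.2.2 = Kc τ.1 ∧
      3 ^ x τ.2.1 + 3 ^ ξ τ.2.2 ≤ 3 ^ x τ.1 + 3 ^ ξ τ.1)
    (hd : ∀ v, cnt L (fun r => Cc r = v) ≤ cnt T (fun τ => Cc τ.1 = v) + e) (v x0 : ℕ) :
    cnt L (fun r => Cc r = v ∧ x r = x0) ≤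
      cnt (T.filter fun τ => x τ.2.1 = x τ.1 ∧ ξ τ.2.2 = ξ τ.1)
        (fun τ => Cc τ.1 = v ∧ x τ.1 = x0) + amp B e := by
  classical
  have hmem : ∀ τ ∈ T, τ.1 ∈ L := fun τ hτ =>
    Multiset.mem_of_le h1 (Multiset.mem_map_of_mem _ hτ)
  have hY : ∀ τ ∈ T, x τ.2.1 ≤ x τ.1 := fun τ hτ =>
    pow3_le_left (hL _ (hmem τ hτ)).2.2.1 (hT τ hτ).2.2
  have hW : ∀ τ ∈ T, ξ τ.2.2 ≤ x τ.1 := fun τ hτ =>
    pow3_le_left (hL _ (hmem τ hτ)).2.2.1 (by have := (hT τ hτ).2.2; rw [add_comm] at this; exact this)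
  have hWe : ∀ τ ∈ T, x τ.2.1 = x τ.1 → ξ τ.2.2 ≤ ξ τ.1 := fun τ hτ he =>
    pow3_le_of_eq (by have := (hT τ hτ).2.2; rw [he] at this; exact this)
  have U1 : ∀ (P : δ → Prop), cnt T (fun τ => P τ.1) ≤ cnt L P := fun P => by
    rw [← cnt_map (fun τ : δ × δ × δ => τ.1) T P]; exact cnt_le_of_le h1 _
  have D1 : ∀ (v : ℕ) (P : δ → Prop), (∀ r ∈ L, P r → Cc r = v) →
      cnt L P ≤ cnt T (fun τ => P τ.1) + e := fun v P hP => by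
    rw [← cnt_map (fun τ : δ × δ × δ => τ.1) T P]
    refine cnt_le_of_defect h1 (fun r => Cc r = v) P hP e ?_
    rw [cnt_map]; exact hd v
  have D2 : ∀ (v : ℕ) (P : δ → Prop), (∀ r ∈ L, P r → Cc r = v) →
      cnt L P ≤ cnt T (fun τ => P τ.2.1) + e := fun v P hP => by
    rw [← cnt_map (fun τ : δ × δ × δ => τ.2.1) T P]
    refine cnt_le_of_defect h2 (fun r => Cc r = v) P hP e ?_
    rw [cnt_map]
    refine (hd v).trans (Nat.add_le_add_right ?_ _)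
    exact cnt_mono _ _ _ fun τ hτ h => by rw [(hT τ hτ).1]; exact h
  have D3 : ∀ (v : ℕ) (P : δ → Prop), (∀ r ∈ L, P r → Kc r = v) →
      cnt L P ≤ cnt T (fun τ => P τ.2.2) + (B + 1) * e := fun v P hP => by
    rw [← cnt_map (fun τ : δ × δ × δ => τ.2.2) T P]
    refine cnt_le_of_defect h3 (fun r => Kc r = v) P hP _ ?_
    rw [cnt_map]
    obtain ⟨R, hR⟩ := Multiset.le_iff_exists_add.1 h1
    have hRe : ∀ w, cnt R (fun r => Cc r = w) ≤ e := fun w => by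
      have := hd w
      rw [hR, cnt_add, cnt_map] at this
      omega
    have hRL : ∀ r ∈ R, r ∈ L := fun r hr => hR ▸ Multiset.mem_add.2 (Or.inr hr)
    have := cnt_le_card_mul (Finset.Icc v (v + B)) R (fun r => Kc r = v)
      (fun w r => Cc r = w) e (fun r hr h => ⟨Cc r, by
        have := hL r (hRL r hr); simp only [Finset.mem_Icc]; omega, rfl⟩) (fun w _ => hRe w)
    rw [Nat.card_Icc, show v + B + 1 - v = B + 1 by omega] at this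
    have h4 : cnt T (fun τ => Kc τ.1 = v) ≤ cnt T (fun τ => Kc τ.2.2 = v) :=
      cnt_mono _ _ _ fun τ hτ h => by rw [(hT τ hτ).2.1]; exact h
    rw [hR, cnt_add, cnt_map]
    omega
  have Ydown : ∀ v a, cnt T (fun τ => Cc τ.1 = v ∧ x τ.2.1 < a ∧ a ≤ x τ.1) ≤ e := by
    intro v a
    have a1 := U1 (fun r => Cc r = v ∧ a ≤ x r)
    have a2 := D2 v (fun r => Cc r = v ∧ a ≤ x r) fun r _ h => h.1
    have a3 := add_le_cnt T (fun τ => Cc τ.1 = v ∧ a ≤ x τ.1)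
      (fun τ => Cc τ.1 = v ∧ x τ.2.1 < a ∧ a ≤ x τ.1) (fun τ => Cc τ.2.1 = v ∧ a ≤ x τ.2.1)
      (fun τ _ h => ⟨h.1, h.2.2⟩)
      (fun τ hτ h => ⟨(hT τ hτ).1 ▸ h.1, h.2.trans (hY τ hτ)⟩)
      (fun τ _ h h' => by omega)
    omega
  have Wup : ∀ v a, cnt T (fun τ => Kc τ.1 = v ∧ ξ τ.1 < a ∧ a ≤ ξ τ.2.2) ≤
      (B + 1) * (B + 1) * e := by
    intro v a
    have := cnt_le_card_mul (Finset.Icc v (v + B) ×ˢ Finset.Icc a (a + B)) T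
      (fun τ => Kc τ.1 = v ∧ ξ τ.1 < a ∧ a ≤ ξ τ.2.2)
      (fun p τ => Cc τ.1 = p.1 ∧ x τ.2.1 < p.2 ∧ p.2 ≤ x τ.1) e
      (fun τ hτ h => ⟨(Cc τ.1, x τ.1), by
        have := hL _ (hmem τ hτ); have := hW τ hτ
        simp only [Finset.mem_product, Finset.mem_Icc]; omega, rfl, by
        have := hY τ hτ; have := hWe τ hτ; simp only; omega, le_rfl⟩)
      (fun p _ => Ydown p.1 p.2)
    rwa [Finset.card_product, Nat.card_Icc, Nat.card_Icc, show v + B + 1 - v = B + 1 by omega,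
      show a + B + 1 - a = B + 1 by omega] at this
  have Wdown : ∀ v a, cnt T (fun τ => Kc τ.1 = v ∧ ξ τ.2.2 < a ∧ a ≤ ξ τ.1) ≤
      (B + 1) * e + (B + 1) * (B + 1) * e := by
    intro v a
    have a1 := U1 (fun r => Kc r = v ∧ a ≤ ξ r)
    have a2 := D3 v (fun r => Kc r = v ∧ a ≤ ξ r) fun r _ h => h.1
    have a3 := add_le_cnt T (fun τ => Kc τ.1 = v ∧ a ≤ ξ τ.1)
      (fun τ => Kc τ.1 = v ∧ ξ τ.2.2 < a ∧ a ≤ ξ τ.1)
      (fun τ => Kc τ.1 = v ∧ a ≤ ξ τ.1 ∧ a ≤ ξ τ.2.2)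
      (fun τ _ h => ⟨h.1, h.2.2⟩) (fun τ _ h => ⟨h.1, h.2.1⟩) (fun τ _ h h' => by omega)
    have a4 := cnt_le_add T (fun τ => Kc τ.2.2 = v ∧ a ≤ ξ τ.2.2)
      (fun τ => Kc τ.1 = v ∧ a ≤ ξ τ.1 ∧ a ≤ ξ τ.2.2)
      (fun τ => Kc τ.1 = v ∧ ξ τ.1 < a ∧ a ≤ ξ τ.2.2)
      (fun τ hτ h => by have := (hT τ hτ).2.1; omega)
    have a5 := Wup v a
    omega
  have bad2 : cnt T (fun τ => Cc τ.1 = v ∧ x τ.1 = x0 ∧ ξ τ.2.2 < ξ τ.1) ≤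
      (B + 1) * (B + 1) * ((B + 1) * e + (B + 1) * (B + 1) * e) := by
    have := cnt_le_card_mul (Finset.range (B + 1) ×ˢ Finset.range (B + 1)) T
      (fun τ => Cc τ.1 = v ∧ x τ.1 = x0 ∧ ξ τ.2.2 < ξ τ.1)
      (fun p τ => Kc τ.1 = v - p.1 ∧ ξ τ.2.2 < x0 - p.2 ∧ x0 - p.2 ≤ ξ τ.1) _
      (fun τ hτ h => ⟨(v - Kc τ.1, x0 - ξ τ.1), by
        have := hL _ (hmem τ hτ)
        simp only [Finset.mem_product, Finset.mem_range]; omega, by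
        have := hL _ (hmem τ hτ); simp only; omega⟩)
      (fun p _ => Wdown (v - p.1) (x0 - p.2))
    rwa [Finset.card_product, Finset.card_range] at this
  have b1 := D1 v (fun r => Cc r = v ∧ x r = x0) fun r _ h => h.1
  have b2 := cnt_le_add T (fun τ => Cc τ.1 = v ∧ x τ.1 = x0)
    (fun τ => (Cc τ.1 = v ∧ x τ.1 = x0) ∧ (x τ.2.1 = x τ.1 ∧ ξ τ.2.2 = ξ τ.1))
    (fun τ => (Cc τ.1 = v ∧ x τ.2.1 < x0 ∧ x0 ≤ x τ.1) ∨
      (Cc τ.1 = v ∧ x τ.1 = x0 ∧ ξ τ.2.2 < ξ τ.1))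
    (fun τ hτ h => by have := hY τ hτ; have := hWe τ hτ; omega)
  have b3 := cnt_le_add T
    (fun τ => (Cc τ.1 = v ∧ x τ.2.1 < x0 ∧ x0 ≤ x τ.1) ∨
      (Cc τ.1 = v ∧ x τ.1 = x0 ∧ ξ τ.2.2 < ξ τ.1))
    (fun τ => Cc τ.1 = v ∧ x τ.2.1 < x0 ∧ x0 ≤ x τ.1)
    (fun τ => Cc τ.1 = v ∧ x τ.1 = x0 ∧ ξ τ.2.2 < ξ τ.1) (fun τ _ h => h)
  have b4 := Ydown v x0
  rw [cnt_filter]
  have b5 : e + e + (B + 1) * (B + 1) * ((B + 1) * e + (B + 1) * (B + 1) * e) ≤ amp B e := by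
    unfold amp
    have c1 : 1 ≤ (B + 1) ^ 4 := Nat.one_le_pow _ _ (by omega)
    have c2 : (B + 1) ^ 3 ≤ (B + 1) ^ 4 := Nat.pow_le_pow_right (by omega) (by omega)
    have c3 := Nat.mul_le_mul_right e c1
    have c4 := Nat.mul_le_mul_right e c2
    nlinarith
  omega

end Crest.Agent.R318
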