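import Crest.Agent.R318.Cells

/-! An almost complete solution of the record system yields a satisfying assignment. -/

set_option autoImplicit false
set_option maxHeartbeats 400000

namespace Crest.Agent.R318

section
variable {q L h : ℕ} {D : Dat} {G₀ : Multiset GRec} {n : ℕ} {bf : ℕ → ℕ × ℚ} {Cs Vs : Finset Pos}
  {lit : Pos → ℕ → Option (Pos × Bool)} {occ : Pos → ℕ → Bool → Option Pos}

theorem cnt_cl (hs : Sys Cs Vs lit occ) {c : Pos} (hc : c ∈ Cs) (P : Rec Pos Kd → Prop) :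
    cnt (allRecs L G₀ n bf Cs Vs lit occ) (fun r => r.1 = c ∧ P r) = cnt (clCell G₀ lit c) P := by
  rw [allRecs, cnt_add, cnt_sum, cnt_sum, Finset.sum_eq_single_of_mem c hc, Finset.sum_eq_zero,
    add_zero]
  · exact cnt_congr _ _ _ fun r hr => by simp [(cell_of_cl hr).1]
  · exact fun p hp => cnt_eq_zero.2 fun r hr h => hs.disj c hc (h.1 ▸ cell_of_va hr ▸ hp)
  · exact fun c' _ hne => cnt_eq_zero.2 fun r hr h => hne ((cell_of_cl hr).1.symm.trans h.1)

theorem cnt_va (hs : Sys Cs Vs lit occ) {p : Pos} (hp : p ∈ Vs) (P : Rec Pos Kd → Prop) :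
    cnt (allRecs L G₀ n bf Cs Vs lit occ) (fun r => r.1 = p ∧ P r) =
      cnt (vaCell L n bf occ p) P := by
  rw [allRecs, cnt_add, cnt_sum, cnt_sum, Finset.sum_eq_single_of_mem p hp, Finset.sum_eq_zero,
    zero_add]
  · exact cnt_congr _ _ _ fun r hr => by simp [cell_of_va hr]
  · exact fun c hc => cnt_eq_zero.2 fun r hr h => hs.disj c hc ((cell_of_cl hr).1 ▸ h.1 ▸ hp)
  · exact fun c' _ hne => cnt_eq_zero.2 fun r hr h => hne ((cell_of_va hr).symm.trans h.1)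

theorem mem_va (hs : Sys Cs Vs lit occ) {p : Pos} (hp : p ∈ Vs) {r : Rec Pos Kd}
    (hr : r ∈ allRecs L G₀ n bf Cs Vs lit occ) (e : r.1 = p) :
    ∃ b, ∃ j ≤ n, r = vaRec n bf (occ p) p b j := by
  rcases mem_allRecs hr with ⟨c, hc, h⟩ | ⟨p', _, h⟩
  · exact absurd ((cell_of_cl h).1 ▸ e ▸ hp) (hs.disj c hc)
  · have := (cell_of_va h).symm.trans e
    subst this
    exact mem_vaCell h

theorem mem_cl (hs : Sys Cs Vs lit occ) {c : Pos} (hc : c ∈ Cs) {r : Rec Pos Kd}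
    (hr : r ∈ allRecs L G₀ n bf Cs Vs lit occ) (e : r.1 = c) : r.2.1.1 = c := by
  rcases mem_allRecs hr with ⟨c', _, h⟩ | ⟨p', hp, h⟩
  · rw [(cell_of_cl h).2, ← (cell_of_cl h).1, e]
  · exact absurd (e ▸ cell_of_va h ▸ hp) (hs.disj c hc)

theorem local_cell {r : Rec Pos Kd} (hr : r ∈ allRecs L G₀ n bf Cs Vs lit occ)
    (e : r.2.1.2 = none) : r.1 = r.2.1.1 := by
  rcases mem_allRecs hr with ⟨c', _, h⟩ | ⟨p, _, h⟩
  · rw [(cell_of_cl h).2, (cell_of_cl h).1]
  · obtain ⟨b, j, -, rfl⟩ := mem_vaCell h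
    simp only [vaRec] at e ⊢
    rcases h : toc n bf (occ p) b j with _ | c
    · simp [tkd]
    · simp [tkd, h] at e

theorem link_cell {r : Rec Pos Kd} (hr : r ∈ allRecs L G₀ n bf Cs Vs lit occ)
    (e : r.2.1.2 ≠ none) (ht : 0 < r.2.2.2.2) : r.1 = r.2.1.1 := by
  rcases mem_allRecs hr with ⟨c', _, h⟩ | ⟨p, _, h⟩
  · rw [(cell_of_cl h).2, (cell_of_cl h).1]
  · obtain ⟨b, j, -, rfl⟩ := mem_vaCell h
    simp only [vaRec] at e ht ⊢
    by_cases hj : j = n
    · simp [toc, hj, tkd] at e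
    · simp [hj] at ht

theorem len_le (hg : Gad q L h D G₀ n bf) {r : Rec Pos Kd}
    (hr : r ∈ allRecs L G₀ n bf Cs Vs lit occ) :
    r.2.2.2.2 ≤ 1 ∨ (r.2.1.2 = none ∧ r.2.2.2.2 = 2 * n) := by
  rcases mem_allRecs hr with ⟨c', _, h⟩ | ⟨p, _, h⟩
  · obtain ⟨⟨k, u, w, t⟩, hg', rfl⟩ := Multiset.mem_map.1 h
    have := (W_nonneg hg hg.gW hg').2.1
    left
    rcases k with _ | s
    · exact this
    · simp only [clRec, Option.elim]; split_ifs
      exacts [this, zero_le_one]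
  · obtain ⟨b, j, -, rfl⟩ := mem_vaCell h
    simp only [vaRec]
    split_ifs with h
    · right; simp [toc, h.1, tkd]
    · left; exact zero_le_one

theorem mem_of_map_le {α β : Type*} {f : α → β} {T A : Multiset α} (h : T.map f ≤ A.map f)
    {r : α} (hr : r ∈ T) : ∃ r' ∈ A, f r' = f r :=
  Multiset.mem_map.1 (Multiset.mem_of_le h (Multiset.mem_map_of_mem _ hr))

/-- An almost complete solution. -/
structure Near (T A : Multiset (Rec Pos Kd)) (m : ℕ) : Prop where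
  hX : T.map Xd ≤ A.map Xd
  hY : T.map Yd ≤ A.map Yd
  hW : T.map Wd ≤ A.map Wd
  fit : ∀ r ∈ T, Fits r
  def_le : ∀ z, cnt A (fun r => r.1 = z) ≤ cnt T (fun r => r.1 = z) + m

variable {T : Multiset (Rec Pos Kd)} {m : ℕ}

/-- Long records on side `b` of the variable cell `p`. -/
def Long (n : ℕ) (p : Pos) (b : Bool) (r : Rec Pos Kd) : Prop :=
  r.1 = p ∧ 1 < r.2.2.2.2 ∧ (b = true ↔ r.2.2.2.1 ≤ 2 * n)

theorem long_kind (hg : Gad q L h D G₀ n bf) (hT : Near T (allRecs L G₀ n bf Cs Vs lit occ) m)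
    {r : Rec Pos Kd} (hr : r ∈ T) (ht : 1 < r.2.2.2.2) :
    r.2.1 = (r.1, none) ∧ r.2.2.2.2 = 2 * n := by
  obtain ⟨r₁, h₁, e₁⟩ := mem_of_map_le hT.hX hr
  obtain ⟨r₃, h₃, e₃⟩ := mem_of_map_le hT.hW hr
  simp only [Xd, Wd, Prod.mk.injEq] at e₁ e₃
  rcases len_le hg h₃ with h | h
  · linarith [e₃.2]
  · rw [e₃.1, e₃.2] at h
    have := local_cell h₁ (e₁.2.1 ▸ h.1)
    rw [e₁.1, e₁.2.1] at this
    exact ⟨Prod.ext this.symm h.1, h.2⟩

theorem long_le (hg : Gad q L h D G₀ n bf) (hs : Sys Cs Vs lit occ)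
    (hT : Near T (allRecs L G₀ n bf Cs Vs lit occ) m) {p : Pos} (hp : p ∈ Vs) :
    cnt T (Long n p true) + cnt T (Long n p false) ≤ L := by
  have h1 := add_le_cnt T (fun r => (Wd r).1 = (p, none) ∧ 1 < (Wd r).2) (Long n p true)
    (Long n p false) (fun r hr h => ⟨h.1 ▸ (long_kind hg hT hr h.2.1).1, h.2.1⟩)
    (fun r hr h => ⟨h.1 ▸ (long_kind hg hT hr h.2.1).1, h.2.1⟩)
    (fun r _ h h' => by simpa using h'.2.2.2 (h.2.2.1 rfl))
  have h2 := cnt_le_of_map_le hT.hW fun a => a.1 = (p, none) ∧ 1 < a.2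
  have h3 := cnt_mono (allRecs L G₀ n bf Cs Vs lit occ)
    (fun r => (Wd r).1 = (p, none) ∧ 1 < (Wd r).2) (fun r => r.1 = p ∧ 1 < r.2.2.2.2)
    fun r hr h => ⟨by
      have e : r.2.1 = (p, none) := h.1
      rw [local_cell hr (by rw [e]), e], h.2⟩
  rw [cnt_va hs hp, vaCell, cnt_nsmul, cnt_sum, Fintype.sum_bool, cnt_map, cnt_map] at h3
  have h4 : cnt (Multiset.range (n + 1)) (fun j => 1 < (vaRec n bf (occ p) p false j).2.2.2.2) = 0 :=
    cnt_eq_zero.2 fun j _ => by simp [vaRec]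
  have h5 : cnt (Multiset.range (n + 1)) (fun j => 1 < (vaRec n bf (occ p) p true j).2.2.2.2) ≤ 1 := by
    rw [Multiset.range_succ, cnt_cons, cnt_eq_zero.2 fun j hj => by
      simp [vaRec, (Multiset.mem_range.1 hj).ne]]
    split_ifs <;> simp
  have := Nat.mul_le_mul_left L h5
  rw [h4, add_zero] at h3
  omega

theorem var_hold (hg : Gad q L h D G₀ n bf) (hs : Sys Cs Vs lit occ)
    (hT : Near T (allRecs L G₀ n bf Cs Vs lit occ) m) (hm : 10 * m ≤ L) {p : Pos} (hp : p ∈ Vs)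
    {b : Bool} {j : ℕ} (hj : j < n) {c : Pos} (hc : occ p (bf j).1 b = some c)
    (hl : 2 * cnt T (Long n p b) ≤ L) :
    2 * L ≤ 5 * cnt T fun r => r.1 = p ∧ r.2.2.2.1 = tpos n b j ∧ r.2.1 = (c, some (bf j).1) ∧
      (bf j).2 ≤ r.2.2.2.2 := by
  have h1 := cover hT.hX hT.hY (hT.def_le p) (tpos n b j)
  rw [cnt_va hs hp, cnt_va hs hp] at h1
  have hoc : toc n bf (occ p) b j = some c := by simp [toc, hj, hc]
  have h2 := add_le_cnt (vaCell L n bf occ p) (fun r => (tpos n b j : ℚ) < r.2.2.1)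
    (fun r => (tpos n b j : ℚ) < r.2.2.2.1) (fun r => r = vaRec n bf (occ p) p b j)
    (fun r hr h => by
      obtain ⟨b', j', -, rfl⟩ := mem_vaCell hr
      have := (tex_bound hg (occ p) b' j').1
      simp only [vaRec] at h ⊢; linarith)
    (fun r _ h => by
      have := (hg.bn j hj).2.1
      simp only [h, vaRec, hoc, tex, Option.elim]; linarith)
    (fun r _ h h' => by simp [h', vaRec] at h)
  have h3 : L ≤ cnt (vaCell L n bf occ p) fun r => r = vaRec n bf (occ p) p b j := by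
    rw [vaCell, cnt_nsmul]
    exact Nat.le_mul_of_pos_right _ (cnt_pos.2 ⟨_, Multiset.mem_sum.2 ⟨b, Finset.mem_univ _,
      Multiset.mem_map_of_mem _ (Multiset.mem_range.2 (by omega))⟩, rfl⟩)
  have h4 := cnt_le_add T (fun r => r.1 = p ∧ r.2.2.2.1 ≤ tpos n b j ∧ (tpos n b j : ℚ) < r.2.2.1)
    (Long n p b) (fun r => r.1 = p ∧ r.2.2.2.1 = tpos n b j ∧ r.2.1 = (c, some (bf j).1) ∧
      (bf j).2 ≤ r.2.2.2.2) fun r hr ⟨e, a1, a2⟩ => by
    have hf : r.2.2.1 - r.2.2.2.1 ≤ r.2.2.2.2 := hT.fit r hr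
    obtain ⟨r₁, h₁, e₁⟩ := mem_of_map_le hT.hX hr
    obtain ⟨r₂, h₂, e₂⟩ := mem_of_map_le hT.hY hr
    simp only [Xd, Yd, Prod.mk.injEq] at e₁ e₂
    obtain ⟨b₁, j₁, hj₁, rfl⟩ := mem_va hs hp h₁ (e₁.1.trans e)
    obtain ⟨b₂, j₂, hj₂, rfl⟩ := mem_va hs hp h₂ (e₂.1.trans e)
    simp only [vaRec] at e₁ e₂
    obtain ⟨-, k₁, u₁⟩ := e₁
    obtain ⟨-, w₂⟩ := e₂
    rcases lt_or_ge 1 r.2.2.2.2 with ht | ht
    · refine Or.inl ⟨e, ht, ?_⟩
      rw [(long_kind hg hT hr ht).2] at hf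
      have b1 : tpos n b₂ j₂ ≤ tpos n b j := by exact_mod_cast w₂ ▸ a1
      have b2 : tpos n b j < tpos n b₂ j₂ + 2 * n := by
        have : (tpos n b j : ℚ) < tpos n b₂ j₂ + 2 * n := by linarith
        exact_mod_cast this
      rw [← w₂]
      norm_cast
      cases b <;> cases b₂ <;> simp [tpos] at b1 b2 ⊢ <;> omega
    · right
      have b1 : tpos n b₂ j₂ ≤ tpos n b j := by exact_mod_cast w₂ ▸ a1
      have b2 : tpos n b j < tpos n b₂ j₂ + 1 := by
        have : (tpos n b j : ℚ) < tpos n b₂ j₂ + 1 := by linarith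
        exact_mod_cast this
      have b3 : tpos n b₂ j₂ = tpos n b j := by omega
      rw [b3] at w₂
      have tb := tex_bound hg (occ p) b₁ j₁
      have b4 : tpos n b j < tpos n b₁ j₁ + 1 := by
        have : (tpos n b j : ℚ) < tpos n b₁ j₁ + 1 := by linarith [tb.2]
        exact_mod_cast this
      have b5 : tpos n b₁ j₁ ≤ tpos n b j + 1 := by
        have : (tpos n b₁ j₁ : ℚ) ≤ tpos n b j + 1 := by linarith [tb.1]
        exact_mod_cast this
      have b6 : b₁ = b ∧ j₁ = j := by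
        cases b <;> cases b₁ <;> simp [tpos] at b4 b5 ⊢ <;> omega
      obtain ⟨rfl, rfl⟩ := b6
      rw [hoc] at k₁ u₁
      simp only [tex, Option.elim] at u₁
      exact ⟨e, w₂.symm, k₁.symm, by linarith⟩
  omega

theorem sound (hg : Gad q L (m + 1) D G₀ n bf) (hs : Sys Cs Vs lit occ)
    (hT : Near T (allRecs L G₀ n bf Cs Vs lit occ) m) (hm : 10 * m ≤ L) :
    ∃ σ : Pos → Bool, ∀ c ∈ Cs, ∃ s p b, lit c s = some (p, b) ∧ σ p = b := by
  classical
  refine ⟨fun p => decide (L < 2 * cnt T (Long n p true)), fun c hc => ?_⟩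
  by_contra hcon
  have hfalse : ∀ s p b, lit c s = some (p, b) → 2 * cnt T (Long n p b) ≤ L := fun s p b e => by
    have h1 := long_le hg hs hT (hs.lit_mem c hc s p b e)
    have h2 : decide (L < 2 * cnt T (Long n p true)) ≠ b := fun h => hcon ⟨s, p, b, e, h⟩
    cases b <;> simp at h2 <;> omega
  have hcW := clRec_W hg hg.gW (fun s => (lit c s).isSome) c
  obtain ⟨θ, h1, h2⟩ := hg.sound ((T.filter fun r => r.1 = c).map fun r => (r.2.2.2.1, r.2.2.1))
    fun lam hl => by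
      rw [cnt_map, cnt_filter]
      have c1 := cnt_le_add T (fun r => lam < r.2.2.1 - r.2.2.2.1 ∧ r.1 = c)
        (fun r => (Wd r).1 = (c, none) ∧ lam < (Wd r).2)
        (fun r => r.1 = c ∧ r.2.1.1 = c ∧ r.2.1.2 ≠ none ∧ lam < r.2.2.2.2) fun r hr h => by
          have a1 : lam < r.2.2.2.2 := h.1.trans_le (hT.fit r hr)
          obtain ⟨r₁, h₁, e₁⟩ := mem_of_map_le hT.hX hr
          simp only [Xd, Prod.mk.injEq] at e₁
          have a2 : r.2.1.1 = c := e₁.2.1 ▸ mem_cl hs hc h₁ (e₁.1.trans h.2)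
          by_cases hk : r.2.1.2 = none
          · exact Or.inl ⟨Prod.ext a2 hk, a1⟩
          · exact Or.inr ⟨h.2, a2, hk, a1⟩
      have c2 := cnt_le_of_map_le hT.hW fun a => a.1 = (c, none) ∧ lam < a.2
      have c3 := cnt_mono (allRecs L G₀ n bf Cs Vs lit occ)
        (fun r => (Wd r).1 = (c, none) ∧ lam < (Wd r).2)
        (fun r => r.1 = c ∧ (Wd r).1.2 = none ∧ lam < (Wd r).2) fun r hr h => by
          have e : r.2.1 = (c, none) := h.1
          exact ⟨by rw [local_cell hr (by rw [e]), e], by rw [h.1], h.2⟩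
      rw [cnt_cl hs hc, ← cnt_map Wd _ fun a : Kd × ℚ => a.1.2 = none ∧ lam < a.2, clCell,
        hcW] at c3
      simp only [cnt_add, cnt_map, cnt_nsmul, true_and, reduceCtorEq, false_and] at c3
      rw [cnt_eq_zero (P := fun _ => False).2 fun _ _ h => h] at c3
      have d2 := cnt_le_of_map_le hT.hW fun a => a.1.1 = c ∧ a.1.2 ≠ none ∧ lam < a.2
      have d3 := cnt_mono (allRecs L G₀ n bf Cs Vs lit occ)
        (fun r => (Wd r).1.1 = c ∧ (Wd r).1.2 ≠ none ∧ lam < (Wd r).2)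
        (fun r => r.1 = c ∧ (Wd r).1.2 ≠ none ∧ lam < (Wd r).2) fun r hr h =>
          ⟨(link_cell hr h.2.1 (hl.trans_lt h.2.2)).trans h.1, h.2⟩
      rw [cnt_cl hs hc, ← cnt_map Wd _ fun a : Kd × ℚ => a.1.2 ≠ none ∧ lam < a.2, clCell,
        hcW] at d3
      simp only [cnt_add, cnt_map, cnt_nsmul, ne_eq, not_true, reduceCtorEq, false_and,
        not_false_eq_true, true_and] at d3
      rw [cnt_eq_zero (P := fun _ => False).2 fun _ _ h => h] at d3
      let J := (Finset.range n).filter fun j => (lit c (bf j).1).isSome ∧ lam < (bf j).2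
      have d4 : cnt (Multiset.range n)
          (fun j => lam < if (lit c (bf j).1).isSome then (bf j).2 else 0) = J.card := by
        rw [cnt_congr _ _ (fun j => (lit c (bf j).1).isSome ∧ lam < (bf j).2) fun j _ => by
          split_ifs with h <;> simp [h, hl], cnt_eq, Multiset.countP_eq_card_filter]
        rfl
      have d5 : J.card ≤ cnt D.Bn fun b => lam < b.2 := by
        rw [← d4, hg.hBn, cnt_map]
        exact cnt_mono _ _ _ fun j _ h => by
          split_ifs at h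
          exacts [h, absurd h (not_lt.2 hl)]
      let Q : ℕ → Rec Pos Kd → Prop := fun j r => ∃ p b, lit c (bf j).1 = some (p, b) ∧
        r.1 = p ∧ r.2.2.2.1 = tpos n b j ∧ r.2.1 = (c, some (bf j).1) ∧ (bf j).2 ≤ r.2.2.2.2
      have d6 := sum_le_cnt J T (fun r => r.1 ≠ c ∧ r.2.1.1 = c ∧ r.2.1.2 ≠ none ∧
        lam < r.2.2.2.2) Q
        (fun r _ j hj ⟨p, b, e1, e2, _, e4, e5⟩ => ⟨fun h => hs.disj c hc
            (h ▸ e2 ▸ hs.lit_mem c hc _ p b e1), by rw [e4], by rw [e4]; simp,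
          (Finset.mem_filter.1 hj).2.2.trans_le e5⟩)
        (fun r _ i _ j _ ⟨p, b, e1, _, e3, e4, _⟩ ⟨p', b', e1', _, e3', e4', _⟩ => by
          have a1 : (bf i).1 = (bf j).1 := by simpa using e4.symm.trans e4'
          rw [a1, e1'] at e1
          obtain ⟨-, rfl⟩ := Prod.mk.inj (Option.some.inj e1)
          have a2 : tpos n b' i = tpos n b' j := by exact_mod_cast e3.symm.trans e3'
          unfold tpos at a2; omega)
      have d7 : ∑ _j ∈ J, 2 * L ≤ ∑ j ∈ J, 5 * cnt T (Q j) := Finset.sum_le_sum fun j hj => by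
        obtain ⟨hj, h1, -⟩ := Finset.mem_filter.1 hj
        obtain ⟨⟨p, b⟩, e⟩ := Option.isSome_iff_exists.1 h1
        refine (var_hold hg hs hT hm (hs.lit_mem c hc _ p b e) (Finset.mem_range.1 hj)
          ((hs.occ_iff _ _ _ _).2 ⟨hc, e⟩) (hfalse _ p b e)).trans (Nat.mul_le_mul_left _ ?_)
        exact cnt_mono _ _ _ fun r _ h => ⟨p, b, e, h⟩
      rw [← Finset.mul_sum, ← Finset.mul_sum, Finset.sum_const, smul_eq_mul] at d7
      have d8 := add_le_cnt T (fun r => (Wd r).1.1 = c ∧ (Wd r).1.2 ≠ none ∧ lam < (Wd r).2)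
        (fun r => r.1 = c ∧ r.2.1.1 = c ∧ r.2.1.2 ≠ none ∧ lam < r.2.2.2.2)
        (fun r => r.1 ≠ c ∧ r.2.1.1 = c ∧ r.2.1.2 ≠ none ∧ lam < r.2.2.2.2)
        (fun _ _ h => h.2) (fun _ _ h => h.2) (fun _ _ h h' => h'.1 h.1)
      have d9 := Nat.mul_le_mul_left L d5
      rw [d4] at d3
      replace d3 := d2.trans d3
      rw [mul_comm J.card] at d7
      simp only [Dat.av, mul_assoc]
      omega
  have c1 := cover hT.hX hT.hY (hT.def_le c) θ
  rw [cnt_eq_zero (T := T).2 fun r hr h => h2 _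
    (Multiset.mem_map_of_mem _ (Multiset.mem_filter.2 ⟨hr, h.1⟩)) h.2, cnt_cl hs hc,
    cnt_cl hs hc] at c1
  unfold Dat.base at h1
  rw [← hg.gX, ← hg.gY] at h1
  simp only [clCell, cnt_map, clRec] at c1 h1
  omega

end

end Crest.Agent.R318
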